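import Mathlib

namespace Vale.Agent.Lib.Helper1.BlockSensDefs

/-- `flipOn x B` is the input `x` with exactly the coordinates in `B` flipped. -/
def flipOn {ι : Type*} [DecidableEq ι] (x : ι → Bool) (B : Finset ι) : ι → Bool :=
  fun i => if i ∈ B then !(x i) else x i

/-- The sensitivity of `f` at the input `x`: the number of coordinates `i` such that flipping
coordinate `i` of `x` changes the value of `f`. -/
def sensAt {ι : Type*} [DecidableEq ι] [Fintype ι] (f : (ι → Bool) → Bool) (x : ι → Bool) : ℕ :=
  (Finset.univ.filter (fun i => f (flipOn x {i}) ≠ f x)).card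

/-- `IsBlockFamily f x F`: every member `B` of `F` is a sensitive block of `f` at `x`
(flipping exactly the coordinates in `B` changes the value), and the members of `F` are pairwise
disjoint. The block sensitivity of `f` at `x` is the largest cardinality of such a family. -/
def IsBlockFamily {ι : Type*} [DecidableEq ι] (f : (ι → Bool) → Bool) (x : ι → Bool)
    (F : Finset (Finset ι)) : Prop :=
  (∀ B ∈ F, f (flipOn x B) ≠ f x) ∧ ∀ B ∈ F, ∀ C ∈ F, B ≠ C → Disjoint B C

end Vale.Agent.Lib.Helper1.BlockSensDefs
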