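import Mathlib
import Vale.Agent.Lib.Helper1.BlockSensDefs

namespace Vale.Agent.Lib.Helper1.BlockSens

open Vale.Agent.Lib.Helper1.BlockSensDefs

variable {ι : Type*} [DecidableEq ι]

theorem flipOn_empty (x : ι → Bool) : flipOn x ∅ = x := by
  funext i
  simp [flipOn]

theorem flipOn_flipOn (x : ι → Bool) (S T : Finset ι) :
    flipOn (flipOn x S) T = flipOn x (symmDiff S T) := by
  funext i
  simp only [flipOn, Finset.mem_symmDiff]
  by_cases h1 : i ∈ S <;> by_cases h2 : i ∈ T <;> simp [h1, h2]

theorem flipOn_single_mem (x : ι → Bool) (B : Finset ι) (i : ι) (h : i ∈ B) :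
    flipOn (flipOn x B) {i} = flipOn x (B.erase i) := by
  funext j
  simp only [flipOn, Finset.mem_singleton, Finset.mem_erase]
  by_cases h1 : j = i
  · subst h1
    simp [h]
  · simp [h1]

theorem flipOn_single_not_mem (x : ι → Bool) (B : Finset ι) (i : ι) (h : i ∉ B) :
    flipOn (flipOn x B) {i} = flipOn x (insert i B) := by
  funext j
  simp only [flipOn, Finset.mem_singleton, Finset.mem_insert]
  by_cases h1 : j = i
  · subst h1
    simp [h]
  · simp [h1]

theorem flipOn_single_erase (x : ι → Bool) (B : Finset ι) (p : ι) (h : p ∈ B) :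
    flipOn (flipOn x {p}) (B.erase p) = flipOn x B := by
  funext j
  simp only [flipOn, Finset.mem_singleton, Finset.mem_erase]
  by_cases h1 : j = p
  · subst h1
    simp [h]
  · simp [h1]

theorem flipOn_single_insert (x : ι → Bool) (B : Finset ι) (p : ι) (h : p ∉ B) :
    flipOn (flipOn x {p}) B = flipOn x (insert p B) := by
  funext j
  simp only [flipOn, Finset.mem_singleton, Finset.mem_insert]
  by_cases h1 : j = p
  · subst h1
    simp [h]
  · simp [h1]

/-- A minimal sensitive block at a zero of `f`. -/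
def MinBlock (f : (ι → Bool) → Bool) (y : ι → Bool) (B : Finset ι) : Prop :=
  f (flipOn y B) = true ∧ ∀ C, C ⊂ B → f (flipOn y C) = false

theorem exists_minBlock (f : (ι → Bool) → Bool) (y : ι → Bool) (B : Finset ι)
    (h : f (flipOn y B) = true) : ∃ C, C ⊆ B ∧ MinBlock f y C := by
  have hne : (B.powerset.filter fun C => f (flipOn y C) = true).Nonempty :=
    ⟨B, by simp [h]⟩
  obtain ⟨C, hC, hmin⟩ := Finset.exists_min_image _ Finset.card hne
  rw [Finset.mem_filter, Finset.mem_powerset] at hC
  refine ⟨C, hC.1, hC.2, fun C' hC' => ?_⟩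
  by_contra hf
  have hf' : f (flipOn y C') = true := by simpa using hf
  have hmem : C' ∈ B.powerset.filter fun C => f (flipOn y C) = true := by
    rw [Finset.mem_filter, Finset.mem_powerset]
    exact ⟨hC'.subset.trans hC.1, hf'⟩
  have h1 := hmin C' hmem
  have h2 := Finset.card_lt_card hC'
  omega

theorem MinBlock.nonempty {f : (ι → Bool) → Bool} {y : ι → Bool} {B : Finset ι}
    (hB : MinBlock f y B) (hy : f y = false) : B.Nonempty := by
  rw [Finset.nonempty_iff_ne_empty]
  rintro rfl
  have := hB.1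
  rw [flipOn_empty, hy] at this
  exact Bool.false_ne_true this

variable [Fintype ι]

/-- The coordinates outside `B` whose additional flip destroys the block `B`. -/
def killers (f : (ι → Bool) → Bool) (y : ι → Bool) (B : Finset ι) : Finset ι :=
  Finset.univ.filter fun z => z ∉ B ∧ f (flipOn y (insert z B)) = false

theorem card_add_killers_le {f : (ι → Bool) → Bool} {y : ι → Bool} {B : Finset ι}
    (hB : MinBlock f y B) : B.card + (killers f y B).card ≤ sensAt f (flipOn y B) := by
  have hdisj : Disjoint B (killers f y B) := by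
    rw [Finset.disjoint_left]
    intro i hi hk
    simp only [killers, Finset.mem_filter] at hk
    exact hk.2.1 hi
  rw [← Finset.card_union_of_disjoint hdisj]
  apply Finset.card_le_card
  intro i hi
  simp only [Finset.mem_filter, Finset.mem_univ, true_and]
  rw [hB.1]
  rcases Finset.mem_union.mp hi with h | h
  · rw [flipOn_single_mem _ _ _ h, hB.2 _ (Finset.erase_ssubset h)]
    exact Bool.false_ne_true
  · simp only [killers, Finset.mem_filter, Finset.mem_univ, true_and] at h
    rw [flipOn_single_not_mem _ _ _ h.1, h.2]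
    exact Bool.false_ne_true

/-- No coordinate of a block of size at least two can be flipped without destroying
another block. -/
def Stuck (f : (ι → Bool) → Bool) (y : ι → Bool) (F : Finset (Finset ι)) : Prop :=
  ∀ B₀ ∈ F, ∀ p ∈ B₀, 2 ≤ B₀.card → ∃ B ∈ F, B ≠ B₀ ∧ f (flipOn y (insert p B)) = false

theorem reach_stuck (f : (ι → Bool) → Bool) : ∀ (N : ℕ) (y : ι → Bool) (F : Finset (Finset ι)),
    f y = false → (∀ B ∈ F, MinBlock f y B) → (∀ B ∈ F, ∀ C ∈ F, B ≠ C → Disjoint B C) →
    (∑ B ∈ F, B.card) ≤ N →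
    ∃ (y' : ι → Bool) (F' : Finset (Finset ι)), f y' = false ∧ (∀ B ∈ F', MinBlock f y' B) ∧
      (∀ B ∈ F', ∀ C ∈ F', B ≠ C → Disjoint B C) ∧ F'.card = F.card ∧ Stuck f y' F' := by
  intro N
  induction N with
  | zero =>
    intro y F hy hmin hdisj hsum
    refine ⟨y, F, hy, hmin, hdisj, rfl, ?_⟩
    intro B₀ hB₀ p hp h2
    have : B₀.card ≤ ∑ B ∈ F, B.card :=
      Finset.single_le_sum (f := fun B : Finset ι => B.card) (fun _ _ => Nat.zero_le _) hB₀
    omega
  | succ N ih =>
    intro y F hy hmin hdisj hsum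
    by_cases hst : Stuck f y F
    · exact ⟨y, F, hy, hmin, hdisj, rfl, hst⟩
    · have hst' : ∃ B₀ ∈ F, ∃ p ∈ B₀, 2 ≤ B₀.card ∧
          ∀ B ∈ F, B ≠ B₀ → f (flipOn y (insert p B)) = true := by
        by_contra hcon
        apply hst
        intro B₀ hB₀ p hp h2
        by_contra hcon2
        apply hcon
        refine ⟨B₀, hB₀, p, hp, h2, fun B hB hne => ?_⟩
        by_contra hfb
        exact hcon2 ⟨B, hB, hne, by simpa using hfb⟩
      obtain ⟨B₀, hB₀, p, hp, h2, hfree⟩ := hst'
      have hss : ({p} : Finset ι) ⊂ B₀ := by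
        rw [Finset.ssubset_iff_subset_ne]
        refine ⟨Finset.singleton_subset_iff.mpr hp, ?_⟩
        intro h
        rw [← h, Finset.card_singleton] at h2
        omega
      have hy' : f (flipOn y {p}) = false := (hmin B₀ hB₀).2 _ hss
      have key : ∀ B ∈ F, ∃ C, C ⊆ (if B = B₀ then B₀.erase p else B) ∧
          MinBlock f (flipOn y {p}) C := by
        intro B hB
        apply exists_minBlock
        by_cases hBB : B = B₀
        · rw [if_pos hBB, flipOn_single_erase _ _ _ hp]
          exact (hmin B₀ hB₀).1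
        · rw [if_neg hBB]
          have hpB : p ∉ B := fun hpB =>
            (Finset.disjoint_left.mp (hdisj B hB B₀ hB₀ hBB) hpB) hp
          rw [flipOn_single_insert _ _ _ hpB]
          exact hfree B hB hBB
      choose! g hg using key
      have hgsub : ∀ B ∈ F, g B ⊆ B := by
        intro B hB
        have := (hg B hB).1
        by_cases hBB : B = B₀
        · subst hBB
          rw [if_pos rfl] at this
          exact this.trans (Finset.erase_subset _ _)
        · rw [if_neg hBB] at this
          exact this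
      have hgne : ∀ B ∈ F, (g B).Nonempty := fun B hB => (hg B hB).2.nonempty hy'
      have hinj : Set.InjOn g (F : Set (Finset ι)) := by
        intro B hB C hC hBC
        by_contra hne
        have hd : Disjoint (g B) (g C) :=
          Finset.disjoint_of_subset_left (hgsub B hB)
            (Finset.disjoint_of_subset_right (hgsub C hC) (hdisj B hB C hC hne))
        rw [hBC, Finset.disjoint_self_iff_empty] at hd
        exact (hgne C hC).ne_empty hd
      have hcard : (F.image g).card = F.card := Finset.card_image_of_injOn hinj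
      have hmin' : ∀ B ∈ F.image g, MinBlock f (flipOn y {p}) B := by
        intro B hB
        obtain ⟨B1, hB1, rfl⟩ := Finset.mem_image.mp hB
        exact (hg B1 hB1).2
      have hdisj' : ∀ B ∈ F.image g, ∀ C ∈ F.image g, B ≠ C → Disjoint B C := by
        intro B hB C hC hne
        obtain ⟨B1, hB1, rfl⟩ := Finset.mem_image.mp hB
        obtain ⟨C1, hC1, rfl⟩ := Finset.mem_image.mp hC
        have hne1 : B1 ≠ C1 := fun h => hne (by rw [h])
        exact Finset.disjoint_of_subset_left (hgsub B1 hB1)
          (Finset.disjoint_of_subset_right (hgsub C1 hC1) (hdisj B1 hB1 C1 hC1 hne1))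
      have hsum' : (∑ B ∈ F.image g, B.card) ≤ N := by
        rw [Finset.sum_image hinj]
        have hlt : (∑ B ∈ F, (g B).card) < ∑ B ∈ F, B.card := by
          apply Finset.sum_lt_sum
          · intro B hB
            exact Finset.card_le_card (hgsub B hB)
          · refine ⟨B₀, hB₀, ?_⟩
            have h1 := (hg B₀ hB₀).1
            rw [if_pos rfl] at h1
            have h2' := Finset.card_le_card h1
            rw [Finset.card_erase_of_mem hp] at h2'
            omega
        omega
      obtain ⟨y'', F'', h1, h2', h3, h4, h5⟩ := ih (flipOn y {p}) (F.image g) hy' hmin' hdisj' hsum'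
      exact ⟨y'', F'', h1, h2', h3, h4.trans hcard, h5⟩

theorem stuck_count (f : (ι → Bool) → Bool) (k : ℕ) (y : ι → Bool) (F : Finset (Finset ι))
    (hk : ∀ z, f z = true → sensAt f z ≤ k) (hmin : ∀ B ∈ F, MinBlock f y B)
    (hdisj : ∀ B ∈ F, ∀ C ∈ F, B ≠ C → Disjoint B C) (hst : Stuck f y F) :
    (∑ B ∈ F, if 2 ≤ B.card then B.card else 0) ≤ ∑ B ∈ F, (k - B.card) := by
  have h1 : (F.biUnion fun B => if 2 ≤ B.card then B else ∅).card
      = ∑ B ∈ F, (if 2 ≤ B.card then B.card else 0) := by
    rw [Finset.card_biUnion]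
    · apply Finset.sum_congr rfl
      intro B _
      split_ifs <;> simp
    · intro B hB C hC hne
      have hd := hdisj B hB C hC hne
      refine Finset.disjoint_of_subset_left ?_ (Finset.disjoint_of_subset_right ?_ hd)
      · show (if 2 ≤ B.card then B else ∅) ⊆ B
        split_ifs <;> simp
      · show (if 2 ≤ C.card then C else ∅) ⊆ C
        split_ifs <;> simp
  have h2 : (F.biUnion fun B => if 2 ≤ B.card then B else ∅) ⊆ F.biUnion (killers f y) := by
    intro p hp
    obtain ⟨B₀, hB₀, hpB⟩ := Finset.mem_biUnion.mp hp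
    by_cases h2 : 2 ≤ B₀.card
    · rw [if_pos h2] at hpB
      obtain ⟨B, hB, hne, hfb⟩ := hst B₀ hB₀ p hpB h2
      refine Finset.mem_biUnion.mpr ⟨B, hB, ?_⟩
      simp only [killers, Finset.mem_filter, Finset.mem_univ, true_and]
      exact ⟨fun hpB' => (Finset.disjoint_left.mp (hdisj B hB B₀ hB₀ hne) hpB') hpB, hfb⟩
    · rw [if_neg h2] at hpB
      simp at hpB
  have h3 : (F.biUnion (killers f y)).card ≤ ∑ B ∈ F, (k - B.card) := by
    refine Finset.card_biUnion_le.trans ?_
    apply Finset.sum_le_sum
    intro B hB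
    have ha := card_add_killers_le (hmin B hB)
    have hb := hk _ (hmin B hB).1
    omega
  rw [← h1]
  exact (Finset.card_le_card h2).trans h3

theorem singles_le (f : (ι → Bool) → Bool) (y : ι → Bool) (F : Finset (Finset ι))
    (hy : f y = false) (hmin : ∀ B ∈ F, MinBlock f y B)
    (hdisj : ∀ B ∈ F, ∀ C ∈ F, B ≠ C → Disjoint B C) :
    (F.filter fun B => B.card = 1).card ≤ sensAt f y := by
  have h1 : ((F.filter fun B => B.card = 1).biUnion id).card
      = (F.filter fun B => B.card = 1).card := by
    rw [Finset.card_biUnion]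
    · rw [Finset.card_eq_sum_ones]
      apply Finset.sum_congr rfl
      intro B hB
      exact (Finset.mem_filter.mp hB).2
    · intro B hB C hC hne
      exact hdisj B (Finset.mem_filter.mp hB).1 C (Finset.mem_filter.mp hC).1 hne
  rw [← h1]
  apply Finset.card_le_card
  intro i hi
  obtain ⟨B, hB, hiB⟩ := Finset.mem_biUnion.mp hi
  simp only [id] at hiB
  obtain ⟨hBF, hB1⟩ := Finset.mem_filter.mp hB
  obtain ⟨j, rfl⟩ := Finset.card_eq_one.mp hB1
  have hij : i = j := Finset.mem_singleton.mp hiB
  subst hij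
  simp only [Finset.mem_filter, Finset.mem_univ, true_and]
  rw [(hmin _ hBF).1, hy]
  decide

theorem block_card_bounds {f : (ι → Bool) → Bool} {k : ℕ} {y : ι → Bool} {B : Finset ι}
    (hk : ∀ z, f z = true → sensAt f z ≤ k) (hy : f y = false) (hB : MinBlock f y B) :
    1 ≤ B.card ∧ B.card ≤ k := by
  have ha := card_add_killers_le hB
  have hb := hk _ hB.1
  have hc := Finset.card_pos.mpr (hB.nonempty hy)
  omega

/-- Minimal systems, one-inputs of sensitivity at most three. -/
theorem sys_card_le_three (f : (ι → Bool) → Bool) (t : ℕ)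
    (h1 : ∀ z, f z = true → sensAt f z ≤ 3) (h0 : ∀ z, f z = false → sensAt f z ≤ t)
    (y : ι → Bool) (F : Finset (Finset ι)) (hy : f y = false)
    (hmin : ∀ B ∈ F, MinBlock f y B) (hdisj : ∀ B ∈ F, ∀ C ∈ F, B ≠ C → Disjoint B C) :
    F.card ≤ 3 * t := by
  obtain ⟨y', F', hy', hmin', hdisj', hcard, hst⟩ := reach_stuck f _ y F hy hmin hdisj le_rfl
  rw [← hcard]
  have hc := stuck_count f 3 y' F' h1 hmin' hdisj' hst
  have ha := singles_le f y' F' hy' hmin' hdisj'
  have ht := h0 y' hy'
  have hper : ∀ B ∈ F', 1 + (3 - B.card)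
      ≤ 3 * (if B.card = 1 then 1 else 0) + (if 2 ≤ B.card then B.card else 0) := by
    intro B hB
    obtain ⟨hpos, hle⟩ := block_card_bounds h1 hy' (hmin' B hB)
    split_ifs <;> omega
  have hsum := Finset.sum_le_sum hper
  simp only [Finset.sum_add_distrib, ← Finset.mul_sum, ← Finset.card_filter,
    ← Finset.card_eq_sum_ones] at hsum
  omega

/-- Minimal systems, one-inputs of sensitivity at most two. -/
theorem sys_card_le_two (f : (ι → Bool) → Bool) (t : ℕ)
    (h1 : ∀ z, f z = true → sensAt f z ≤ 2) (h0 : ∀ z, f z = false → sensAt f z ≤ t)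
    (y : ι → Bool) (F : Finset (Finset ι)) (hy : f y = false)
    (hmin : ∀ B ∈ F, MinBlock f y B) (hdisj : ∀ B ∈ F, ∀ C ∈ F, B ≠ C → Disjoint B C) :
    2 * F.card ≤ 3 * t := by
  obtain ⟨y', F', hy', hmin', hdisj', hcard, hst⟩ := reach_stuck f _ y F hy hmin hdisj le_rfl
  rw [← hcard]
  have hc := stuck_count f 2 y' F' h1 hmin' hdisj' hst
  have ha := singles_le f y' F' hy' hmin' hdisj'
  have ht := h0 y' hy'
  have hper : ∀ B ∈ F', 2 + (2 - B.card)
      ≤ 3 * (if B.card = 1 then 1 else 0) + (if 2 ≤ B.card then B.card else 0) := by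
    intro B hB
    obtain ⟨hpos, hle⟩ := block_card_bounds h1 hy' (hmin' B hB)
    split_ifs <;> omega
  have hsum := Finset.sum_le_sum hper
  simp only [Finset.sum_add_distrib, ← Finset.mul_sum, ← Finset.card_filter,
    Finset.sum_const, smul_eq_mul] at hsum
  omega

omit [Fintype ι] in
/-- Every family of disjoint sensitive blocks at a zero can be shrunk to a system of
minimal blocks of the same cardinality. -/
theorem exists_min_sys (f : (ι → Bool) → Bool) (x : ι → Bool) (F : Finset (Finset ι))
    (hx : f x = false) (hF : IsBlockFamily f x F) :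
    ∃ F' : Finset (Finset ι), (∀ B ∈ F', MinBlock f x B) ∧
      (∀ B ∈ F', ∀ C ∈ F', B ≠ C → Disjoint B C) ∧ F'.card = F.card := by
  obtain ⟨hsens, hdisj⟩ := hF
  have key : ∀ B ∈ F, ∃ C, C ⊆ B ∧ MinBlock f x C := by
    intro B hB
    apply exists_minBlock
    have := hsens B hB
    rw [hx] at this
    simpa using this
  choose! g hg using key
  have hgsub : ∀ B ∈ F, g B ⊆ B := fun B hB => (hg B hB).1
  have hgne : ∀ B ∈ F, (g B).Nonempty := fun B hB => (hg B hB).2.nonempty hx
  have hinj : Set.InjOn g (F : Set (Finset ι)) := by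
    intro B hB C hC hBC
    by_contra hne
    have hd : Disjoint (g B) (g C) :=
      Finset.disjoint_of_subset_left (hgsub B hB)
        (Finset.disjoint_of_subset_right (hgsub C hC) (hdisj B hB C hC hne))
    rw [hBC, Finset.disjoint_self_iff_empty] at hd
    exact (hgne C hC).ne_empty hd
  refine ⟨F.image g, ?_, ?_, Finset.card_image_of_injOn hinj⟩
  · intro B hB
    obtain ⟨B1, hB1, rfl⟩ := Finset.mem_image.mp hB
    exact (hg B1 hB1).2
  · intro B hB C hC hne
    obtain ⟨B1, hB1, rfl⟩ := Finset.mem_image.mp hB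
    obtain ⟨C1, hC1, rfl⟩ := Finset.mem_image.mp hC
    have hne1 : B1 ≠ C1 := fun h => hne (by rw [h])
    exact Finset.disjoint_of_subset_left (hgsub B1 hB1)
      (Finset.disjoint_of_subset_right (hgsub C1 hC1) (hdisj B1 hB1 C1 hC1 hne1))

theorem bs_zero_le_three (f : (ι → Bool) → Bool) (t : ℕ)
    (h1 : ∀ z, f z = true → sensAt f z ≤ 3) (h0 : ∀ z, f z = false → sensAt f z ≤ t)
    (x : ι → Bool) (hx : f x = false) (F : Finset (Finset ι)) (hF : IsBlockFamily f x F) :
    F.card ≤ 3 * t := by
  obtain ⟨F', hmin, hdisj, hcard⟩ := exists_min_sys f x F hx hF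
  rw [← hcard]
  exact sys_card_le_three f t h1 h0 x F' hx hmin hdisj

theorem bs_zero_le_two (f : (ι → Bool) → Bool) (t : ℕ)
    (h1 : ∀ z, f z = true → sensAt f z ≤ 2) (h0 : ∀ z, f z = false → sensAt f z ≤ t)
    (x : ι → Bool) (hx : f x = false) (F : Finset (Finset ι)) (hF : IsBlockFamily f x F) :
    2 * F.card ≤ 3 * t := by
  obtain ⟨F', hmin, hdisj, hcard⟩ := exists_min_sys f x F hx hF
  rw [← hcard]
  exact sys_card_le_two f t h1 h0 x F' hx hmin hdisj

theorem sensAt_not (f : (ι → Bool) → Bool) (x : ι → Bool) :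
    sensAt (fun z => !(f z)) x = sensAt f x := by
  unfold sensAt
  congr 1
  ext i
  simp

omit [Fintype ι] in
theorem isBlockFamily_not (f : (ι → Bool) → Bool) (x : ι → Bool) (F : Finset (Finset ι)) :
    IsBlockFamily (fun z => !(f z)) x F ↔ IsBlockFamily f x F := by
  unfold IsBlockFamily
  simp

end Vale.Agent.Lib.Helper1.BlockSens
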