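import Mathlib
import Vale.Agent.Lib.Helper1.BlockSensDefs
import Vale.Agent.Lib.Helper1.BlockSens

namespace Vale.Agent.Lib.Helper1.BlockSensLocal

open Vale.Agent.Lib.Helper1.BlockSensDefs Vale.Agent.Lib.Helper1.BlockSens

variable {ι : Type*} [DecidableEq ι]

theorem ins3 (a b c : ι) : (insert a {b, c} : Finset ι) = insert c {b, a} := by
  ext i
  simp only [Finset.mem_insert, Finset.mem_singleton]
  tauto

theorem ins3' (a b c : ι) : (insert a {b, c} : Finset ι) = insert b {c, a} := by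
  ext i
  simp only [Finset.mem_insert, Finset.mem_singleton]
  tauto

theorem er2 (a b : ι) (h : a ≠ b) : ({a, b} : Finset ι).erase b = {a} := by
  ext i
  simp only [Finset.mem_erase, Finset.mem_insert, Finset.mem_singleton]
  constructor
  · rintro ⟨h1, h2 | h2⟩
    · exact h2
    · exact absurd h2 h1
  · rintro rfl
    exact ⟨h, Or.inl rfl⟩

theorem er1 (a b : ι) (h : a ≠ b) : ({a, b} : Finset ι).erase a = {b} := by
  ext i
  simp only [Finset.mem_erase, Finset.mem_insert, Finset.mem_singleton]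
  constructor
  · rintro ⟨h1, h2 | h2⟩
    · exact absurd h2 h1
    · exact h2
  · rintro rfl
    exact ⟨fun h' => h h'.symm, Or.inr rfl⟩

variable [Fintype ι]

theorem card_le_sens (f : (ι → Bool) → Bool) (z : ι → Bool) (S : Finset ι)
    (h : ∀ i ∈ S, f (flipOn z {i}) ≠ f z) : S.card ≤ sensAt f z :=
  Finset.card_le_card (fun i hi => Finset.mem_filter.mpr ⟨Finset.mem_univ i, h i hi⟩)

theorem four_sens (f : (ι → Bool) → Bool) (z : ι → Bool) (a b c d : ι)
    (hab : a ≠ b) (hac : a ≠ c) (had : a ≠ d) (hbc : b ≠ c) (hbd : b ≠ d) (hcd : c ≠ d)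
    (ha : f (flipOn z {a}) ≠ f z) (hb : f (flipOn z {b}) ≠ f z)
    (hc : f (flipOn z {c}) ≠ f z) (hd : f (flipOn z {d}) ≠ f z) : 4 ≤ sensAt f z := by
  have h := card_le_sens f z {a, b, c, d} (by
    intro i hi
    simp only [Finset.mem_insert, Finset.mem_singleton] at hi
    rcases hi with rfl | rfl | rfl | rfl
    · exact ha
    · exact hb
    · exact hc
    · exact hd)
  have hcard : ({a, b, c, d} : Finset ι).card = 4 := by
    rw [Finset.card_insert_of_notMem (by simp [hab, hac, had]),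
      Finset.card_insert_of_notMem (by simp [hbc, hbd]), Finset.card_pair hcd]
  omega

/-- The local configuration excluded in a function of sensitivity at most three. -/
theorem local_contra (f : (ι → Bool) → Bool)
    (hs : ∀ z, sensAt f z ≤ 3) (y : ι → Bool)
    (w₁ w₂ w₃ p p' : ι) (Q : Finset ι) (π : ι → ι)
    (h12 : w₁ ≠ w₂) (h13 : w₁ ≠ w₃) (h23 : w₂ ≠ w₃)
    (hpw : p ≠ w₁ ∧ p ≠ w₂ ∧ p ≠ w₃) (hp'w : p' ≠ w₁ ∧ p' ≠ w₂ ∧ p' ≠ w₃) (hpp' : p ≠ p')
    (hQ : ∀ q ∈ Q, q ≠ w₁ ∧ q ≠ w₂ ∧ q ≠ w₃ ∧ q ≠ p ∧ q ≠ p')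
    (hπ : ∀ q ∈ Q, π q ≠ w₁ ∧ π q ≠ w₂ ∧ π q ≠ w₃ ∧ π q ≠ p ∧ π q ≠ p' ∧ π q ≠ q)
    (hQc : 4 ≤ Q.card)
    (hw₁ : f (flipOn y {w₁}) = true)
    (hp : f (flipOn y {p}) = false)
    (hpp : f (flipOn y {p, p'}) = true)
    (hpw₂ : f (flipOn y {p, w₂}) = true) (hpw₃ : f (flipOn y {p, w₃}) = true)
    (hc1 : ∀ q ∈ Q, f (flipOn y (insert q {p, p'})) = true)
    (hc2 : ∀ q ∈ Q, f (flipOn y (insert p {q, π q})) = true)
    (hd : f (flipOn y (insert w₁ {p, p'})) = true) : False := by
  obtain ⟨hpw1, hpw2, hpw3⟩ := hpw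
  obtain ⟨hp'w1, hp'w2, hp'w3⟩ := hp'w
  have flip2 : ∀ a b : ι, a ≠ b → flipOn (flipOn y {a}) {b} = flipOn y {a, b} := by
    intro a b hab
    rw [flipOn_single_not_mem _ _ _ (by simpa using hab.symm), Finset.pair_comm]
  -- (a) the zero y^{p} is saturated by the directions p', w₂, w₃
  have hA : ∀ d, d ≠ p → d ≠ p' → d ≠ w₂ → d ≠ w₃ → f (flipOn y {p, d}) = false := by
    intro d hdp hdp' hd2 hd3
    by_contra hf
    have h4 := four_sens f (flipOn y {p}) p' w₂ w₃ d hp'w2 hp'w3 (Ne.symm hdp') h23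
      (Ne.symm hd2) (Ne.symm hd3)
      (by rw [flip2 p p' hpp', hpp, hp]; decide)
      (by rw [flip2 p w₂ hpw2, hpw₂, hp]; decide)
      (by rw [flip2 p w₃ hpw3, hpw₃, hp]; decide)
      (by rw [flip2 p d (Ne.symm hdp), hp]; exact hf)
    have := hs (flipOn y {p})
    omega
  have hA1 : f (flipOn y {p, w₁}) = false :=
    hA w₁ (Ne.symm hpw1) (Ne.symm hp'w1) h12 h13
  have hA2 : ∀ q ∈ Q, f (flipOn y {p, q}) = false := by
    intro q hq
    obtain ⟨hq1, hq2, hq3, hqp, hqp'⟩ := hQ q hq
    exact hA q hqp hqp' hq2 hq3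
  -- (b) at most one of the three single directions is sensitive at y^{p,q}
  have hB : ∀ q ∈ Q, f (flipOn y (insert q {p, w₂})) = false ∨
      f (flipOn y (insert q {p, w₃})) = false := by
    intro q hq
    obtain ⟨hq1, hq2, hq3, hqp, hqp'⟩ := hQ q hq
    obtain ⟨hπ1, hπ2, hπ3, hπp, hπp', hπq⟩ := hπ q hq
    by_contra hcon
    have hcon' : f (flipOn y (insert q {p, w₂})) = true ∧
        f (flipOn y (insert q {p, w₃})) = true := by
      constructor
      · by_contra h
        exact hcon (Or.inl (by simpa using h))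
      · by_contra h
        exact hcon (Or.inr (by simpa using h))
    have hz := hA2 q hq
    have h4 := four_sens f (flipOn y {p, q}) p' (π q) w₂ w₃ (Ne.symm hπp') hp'w2 hp'w3
      hπ2 hπ3 h23
      (by
        rw [flipOn_single_not_mem _ _ _ (by simp [Ne.symm hpp', Ne.symm hqp']), ins3 p' p q,
          hc1 q hq, hz]
        decide)
      (by
        rw [flipOn_single_not_mem _ _ _ (by simp [hπp, hπq]), ins3' (π q) p q, hc2 q hq, hz]
        decide)
      (by
        rw [flipOn_single_not_mem _ _ _ (by simp [Ne.symm hpw2, Ne.symm hq2]), ins3 w₂ p q,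
          hcon'.1, hz]
        decide)
      (by
        rw [flipOn_single_not_mem _ _ _ (by simp [Ne.symm hpw3, Ne.symm hq3]), ins3 w₃ p q,
          hcon'.2, hz]
        decide)
    have := hs (flipOn y {p, q})
    omega
  -- (c) sensitive directions of the one y^{p,w}
  have hC : ∀ w, p ≠ w → (∀ q ∈ Q, q ≠ w) → f (flipOn y {p, w}) = true →
      ∀ i ∈ insert w (Q.filter fun q => f (flipOn y (insert q {p, w})) = false),
        f (flipOn (flipOn y {p, w}) {i}) ≠ f (flipOn y {p, w}) := by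
    intro w hpw' hQw hval i hi
    rw [hval]
    rcases Finset.mem_insert.mp hi with h | h
    · subst h
      rw [flipOn_single_mem _ _ _ (by simp), er2 p i hpw', hp]
      decide
    · obtain ⟨hiQ, hif⟩ := Finset.mem_filter.mp h
      obtain ⟨hq1, hq2, hq3, hqp, hqp'⟩ := hQ i hiQ
      rw [flipOn_single_not_mem _ _ _ (by simp [hqp, hQw i hiQ]), hif]
      decide
  have hCcard : ∀ w, (∀ q ∈ Q, q ≠ w) →
      (insert w (Q.filter fun q => f (flipOn y (insert q {p, w})) = false)).card
        = (Q.filter fun q => f (flipOn y (insert q {p, w})) = false).card + 1 := by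
    intro w hQw
    apply Finset.card_insert_of_notMem
    intro hmem
    exact hQw w (Finset.mem_filter.mp hmem).1 rfl
  have hQw2 : ∀ q ∈ Q, q ≠ w₂ := fun q hq => (hQ q hq).2.1
  have hQw3 : ∀ q ∈ Q, q ≠ w₃ := fun q hq => (hQ q hq).2.2.1
  have hle2 : (Q.filter fun q => f (flipOn y (insert q {p, w₂})) = false).card ≤ 2 := by
    have h1 := card_le_sens f _ _ (hC w₂ hpw2 hQw2 hpw₂)
    have h2 := hs (flipOn y {p, w₂})
    rw [hCcard w₂ hQw2] at h1
    omega
  have hle3 : (Q.filter fun q => f (flipOn y (insert q {p, w₃})) = false).card ≤ 2 := by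
    have h1 := card_le_sens f _ _ (hC w₃ hpw3 hQw3 hpw₃)
    have h2 := hs (flipOn y {p, w₃})
    rw [hCcard w₃ hQw3] at h1
    omega
  -- (d) both sets have exactly two elements
  have hcover : Q ⊆ (Q.filter fun q => f (flipOn y (insert q {p, w₂})) = false) ∪
      (Q.filter fun q => f (flipOn y (insert q {p, w₃})) = false) := by
    intro q hq
    rcases hB q hq with h | h
    · exact Finset.mem_union_left _ (Finset.mem_filter.mpr ⟨hq, h⟩)
    · exact Finset.mem_union_right _ (Finset.mem_filter.mpr ⟨hq, h⟩)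
  have hun := (Finset.card_le_card hcover).trans (Finset.card_union_le _ _)
  have heq2 : (Q.filter fun q => f (flipOn y (insert q {p, w₂})) = false).card = 2 := by omega
  have heq3 : (Q.filter fun q => f (flipOn y (insert q {p, w₃})) = false).card = 2 := by omega
  have hD : ∀ w, p ≠ w → w₁ ≠ w → (∀ q ∈ Q, q ≠ w) → f (flipOn y {p, w}) = true →
      (Q.filter fun q => f (flipOn y (insert q {p, w})) = false).card = 2 →
      f (flipOn y (insert w₁ {p, w})) = true := by
    intro w hpw' h1w hQw hval hcard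
    by_contra hf
    have hsens := card_le_sens f (flipOn y {p, w})
      (insert w₁ (insert w (Q.filter fun q => f (flipOn y (insert q {p, w})) = false))) (by
        intro i hi
        rcases Finset.mem_insert.mp hi with h | h
        · subst h
          rw [flipOn_single_not_mem _ _ _ (by simp [Ne.symm hpw1, h1w]), hval]
          exact hf
        · exact hC w hpw' hQw hval i h)
    rw [Finset.card_insert_of_notMem (by
      intro hmem
      rcases Finset.mem_insert.mp hmem with h | h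
      · exact h1w h
      · exact (hQ w₁ (Finset.mem_filter.mp h).1).1 rfl), hCcard w hQw, hcard] at hsens
    have := hs (flipOn y {p, w})
    omega
  have hD2 := hD w₂ hpw2 h12 hQw2 hpw₂ heq2
  have hD3 := hD w₃ hpw3 h13 hQw3 hpw₃ heq3
  -- (e) the zero y^{p,w₁} has four sensitive directions
  have h4 := four_sens f (flipOn y {p, w₁}) p p' w₂ w₃ hpp' hpw2 hpw3 hp'w2 hp'w3 h23
    (by
      rw [flipOn_single_mem _ _ _ (by simp), er1 p w₁ hpw1, hw₁, hA1]
      decide)
    (by
      rw [flipOn_single_not_mem _ _ _ (by simp [Ne.symm hpp', hp'w1]), ins3 p' p w₁, hd, hA1]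
      decide)
    (by
      rw [flipOn_single_not_mem _ _ _ (by simp [Ne.symm hpw2, Ne.symm h12]), ins3 w₂ p w₁, hD2,
        hA1]
      decide)
    (by
      rw [flipOn_single_not_mem _ _ _ (by simp [Ne.symm hpw3, Ne.symm h13]), ins3 w₃ p w₁, hD3,
        hA1]
      decide)
  have := hs (flipOn y {p, w₁})
  omega

end Vale.Agent.Lib.Helper1.BlockSensLocal
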