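import Mathlib
import Vale.Agent.Lib.Helper1.BlockSensDefs
import Vale.Agent.Lib.Helper1.BlockSens
import Vale.Agent.Lib.Helper1.BlockSensLocal

namespace Vale.Agent.Lib.Helper1.BlockSensThree

open Vale.Agent.Lib.Helper1.BlockSensDefs Vale.Agent.Lib.Helper1.BlockSens

/-- Sums over a family of sets of sizes one, two or three. -/
theorem sum_by_card {ι : Type*} [DecidableEq ι] (F : Finset (Finset ι))
    (h : ∀ B ∈ F, 1 ≤ B.card ∧ B.card ≤ 3) (g : ℕ → ℕ) :
    ∑ B ∈ F, g B.card = g 1 * (F.filter fun B => B.card = 1).card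
      + g 2 * (F.filter fun B => B.card = 2).card + g 3 * (F.filter fun B => B.card = 3).card := by
  rw [Finset.card_filter, Finset.card_filter, Finset.card_filter, Finset.mul_sum, Finset.mul_sum,
    Finset.mul_sum, ← Finset.sum_add_distrib, ← Finset.sum_add_distrib]
  apply Finset.sum_congr rfl
  intro B hB
  obtain ⟨h1, h3⟩ := h B hB
  have hcases : B.card = 1 ∨ B.card = 2 ∨ B.card = 3 := by omega
  rcases hcases with hc | hc | hc <;> simp [hc]

/-- If every element of `P` is assigned an element of `W` whose kill set contains it, and kill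
sets have at most two elements, then `P` has at most `2 |W|` elements. -/
theorem card_le_of_kills {α β : Type*} [DecidableEq α] [DecidableEq β] (P : Finset α)
    (W : Finset β) (κ : α → β) (K : β → Finset α)
    (hκ : ∀ p ∈ P, κ p ∈ W ∧ p ∈ K (κ p)) (hK : ∀ w ∈ W, (K w).card ≤ 2) :
    P.card ≤ 2 * W.card := by
  rw [Finset.card_eq_sum_card_fiberwise (f := κ) (t := W) (fun p hp => (hκ p hp).1)]
  have : ∀ w ∈ W, (P.filter fun p => κ p = w).card ≤ 2 := by
    intro w hw
    refine (Finset.card_le_card ?_).trans (hK w hw)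
    intro p hp
    obtain ⟨hpP, hpw⟩ := Finset.mem_filter.mp hp
    rw [← hpw]
    exact (hκ p hpP).2
  calc ∑ w ∈ W, (P.filter fun p => κ p = w).card ≤ ∑ _w ∈ W, 2 := Finset.sum_le_sum this
    _ = 2 * W.card := by rw [Finset.sum_const, smul_eq_mul, mul_comm]

/-- In the extremal case every kill set is exactly a fibre. -/
theorem fiber_full {α β : Type*} [DecidableEq α] [DecidableEq β] (P : Finset α)
    (W : Finset β) (κ : α → β) (K : β → Finset α)
    (hκ : ∀ p ∈ P, κ p ∈ W ∧ p ∈ K (κ p)) (hK : ∀ w ∈ W, (K w).card ≤ 2)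
    (hP : P.card = 2 * W.card) : ∀ w ∈ W, K w = P.filter fun p => κ p = w := by
  have hsub : ∀ w ∈ W, (P.filter fun p => κ p = w) ⊆ K w := by
    intro w hw p hp
    obtain ⟨hpP, hpw⟩ := Finset.mem_filter.mp hp
    rw [← hpw]
    exact (hκ p hpP).2
  have hle : ∀ w ∈ W, (P.filter fun p => κ p = w).card ≤ 2 := fun w hw =>
    (Finset.card_le_card (hsub w hw)).trans (hK w hw)
  have hsum : P.card = ∑ w ∈ W, (P.filter fun p => κ p = w).card :=
    Finset.card_eq_sum_card_fiberwise (f := κ) (t := W) (fun p hp => (hκ p hp).1)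
  intro w hw
  have hfull : 2 ≤ (P.filter fun p => κ p = w).card := by
    by_contra hlt
    have hlt' : (P.filter fun p => κ p = w).card < 2 := not_le.mp hlt
    have : ∑ w ∈ W, (P.filter fun p => κ p = w).card < ∑ _w ∈ W, 2 :=
      Finset.sum_lt_sum hle ⟨w, hw, hlt'⟩
    rw [Finset.sum_const, smul_eq_mul] at this
    omega
  exact (Finset.eq_of_subset_of_card_le (hsub w hw) ((hK w hw).trans hfull)).symm

/-- If every element of `T` lies in the kill set of a member of `S`, kill sets of members of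
`S` have at most one element and `S` is not larger than `T`, then all these kill sets lie
in `T`. -/
theorem killers_sub_of_inj {α γ : Type*} [DecidableEq α] [DecidableEq γ] (T : Finset α)
    (S : Finset γ) (K : γ → Finset α) (hK : ∀ B ∈ S, (K B).card ≤ 1)
    (hT : ∀ x ∈ T, ∃ B ∈ S, x ∈ K B) (hc : S.card ≤ T.card) : ∀ B ∈ S, K B ⊆ T := by
  rcases T.eq_empty_or_nonempty with hTe | ⟨x₀, hx₀⟩
  · intro B hB
    rw [hTe, Finset.card_empty, Nat.le_zero, Finset.card_eq_zero] at hc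
    rw [hc] at hB
    simp at hB
  obtain ⟨B₁, _, _⟩ := hT x₀ hx₀
  have : Nonempty γ := ⟨B₁⟩
  choose! τ hτ using hT
  have hinj : Set.InjOn τ (T : Set α) := by
    intro x hx x' hx' hxx
    have h1 := (hτ x hx).2
    have h2 := (hτ x' hx').2
    rw [← hxx] at h2
    exact Finset.card_le_one.mp (hK _ (hτ x hx).1) x h1 x' h2
  have himg : T.image τ = S := by
    apply Finset.eq_of_subset_of_card_le
    · intro B hB
      obtain ⟨x, hx, rfl⟩ := Finset.mem_image.mp hB
      exact (hτ x hx).1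
    · rw [Finset.card_image_of_injOn hinj]
      exact hc
  intro B hB z hz
  rw [← himg] at hB
  obtain ⟨x, hx, rfl⟩ := Finset.mem_image.mp hB
  have := Finset.card_le_one.mp (hK _ (hτ x hx).1) z hz x (hτ x hx).2
  rw [this]
  exact hx

/-- At a zero having `t` singleton blocks, every coordinate of a two-element block destroys
one of the singleton blocks. -/
theorem pair_kills_single {ι : Type*} [DecidableEq ι] [Fintype ι] (f : (ι → Bool) → Bool)
    (t : ℕ) (hs0 : ∀ z, f z = false → sensAt f z ≤ t) (y : ι → Bool) (F : Finset (Finset ι))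
    (hmin : ∀ B ∈ F, MinBlock f y B) (hdisj : ∀ B ∈ F, ∀ C ∈ F, B ≠ C → Disjoint B C)
    (W : Finset ι) (hW : ∀ w ∈ W, {w} ∈ F) (hWc : t ≤ W.card)
    (B₀ : Finset ι) (hB₀ : B₀ ∈ F) (hc : B₀.card = 2) (p : ι) (hp : p ∈ B₀) :
    ∃ w ∈ W, p ∈ killers f y {w} := by
  have hBW : ∀ w ∈ W, ∀ i ∈ B₀, i ≠ w := by
    intro w hw i hi hiw
    subst hiw
    have hne : B₀ ≠ {i} := by
      intro h
      rw [h] at hc
      simp at hc
    exact (Finset.disjoint_left.mp (hdisj B₀ hB₀ {i} (hW i hw) hne) hi)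
      (Finset.mem_singleton_self i)
  by_contra hcon
  have hnk : ∀ w ∈ W, f (flipOn y (insert p {w})) = true := by
    intro w hw
    by_contra hf
    apply hcon
    refine ⟨w, hw, ?_⟩
    simp only [killers, Finset.mem_filter, Finset.mem_univ, true_and, Finset.mem_singleton]
    exact ⟨hBW w hw p hp, by simpa using hf⟩
  obtain ⟨p', hp'⟩ := Finset.card_eq_one.mp
    (by rw [Finset.card_erase_of_mem hp, hc] : (B₀.erase p).card = 1)
  have hp'mem : p' ∈ B₀.erase p := by rw [hp']; exact Finset.mem_singleton_self p'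
  have hp'B : p' ∈ B₀ := Finset.mem_of_mem_erase hp'mem
  have hp'ne : p' ≠ p := Finset.ne_of_mem_erase hp'mem
  have hB₀eq : B₀ = insert p' {p} := by
    rw [Finset.pair_comm, ← hp', Finset.insert_erase hp]
  have hss : ({p} : Finset ι) ⊂ B₀ := by
    rw [Finset.ssubset_iff_subset_ne]
    refine ⟨Finset.singleton_subset_iff.mpr hp, ?_⟩
    intro h
    rw [← h, Finset.card_singleton] at hc
    omega
  have hz : f (flipOn y {p}) = false := (hmin B₀ hB₀).2 _ hss
  have hsub : insert p' W ⊆ Finset.univ.filter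
      (fun i => f (flipOn (flipOn y {p}) {i}) ≠ f (flipOn y {p})) := by
    intro i hi
    simp only [Finset.mem_filter, Finset.mem_univ, true_and]
    rw [hz]
    rcases Finset.mem_insert.mp hi with h | h
    · subst h
      rw [flipOn_single_not_mem _ _ _ (by simpa using hp'ne), ← hB₀eq, (hmin B₀ hB₀).1]
      decide
    · have hip : i ≠ p := fun hip => hBW i h p hp hip.symm
      rw [flipOn_single_not_mem _ _ _ (by simpa using hip), Finset.pair_comm, hnk i h]
      decide
  have hcard : (insert p' W).card = W.card + 1 :=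
    Finset.card_insert_of_notMem (fun h => hBW p' h p' hp'B rfl)
  have h1 := Finset.card_le_card hsub
  have h2 := hs0 _ hz
  unfold sensAt at h2
  omega

/-- A stuck system of minimal blocks of a function of sensitivity at most three has at most
six blocks. -/
theorem stuck_card_le_six {ι : Type*} [DecidableEq ι] [Fintype ι] (f : (ι → Bool) → Bool)
    (hs : ∀ z, sensAt f z ≤ 3) (y : ι → Bool) (F : Finset (Finset ι)) (hy : f y = false)
    (hmin : ∀ B ∈ F, MinBlock f y B) (hdisj : ∀ B ∈ F, ∀ C ∈ F, B ≠ C → Disjoint B C)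
    (hst : Stuck f y F) : F.card ≤ 6 := by
  have hk : ∀ z, f z = true → sensAt f z ≤ 3 := fun z _ => hs z
  have hbd : ∀ B ∈ F, 1 ≤ B.card ∧ B.card ≤ 3 :=
    fun B hB => block_card_bounds hk hy (hmin B hB)
  have hu : ∀ B ∈ F, ∀ C ∈ F, ∀ i, i ∈ B → i ∈ C → B = C := by
    intro B hB C hC i hiB hiC
    by_contra hne
    exact (Finset.disjoint_left.mp (hdisj B hB C hC hne) hiB) hiC
  obtain ⟨S1, hS1⟩ : ∃ S, S = F.filter fun B => B.card = 1 := ⟨_, rfl⟩
  obtain ⟨S2, hS2⟩ : ∃ S, S = F.filter fun B => B.card = 2 := ⟨_, rfl⟩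
  obtain ⟨S3, hS3⟩ : ∃ S, S = F.filter fun B => B.card = 3 := ⟨_, rfl⟩
  have m1 : ∀ B, B ∈ S1 ↔ B ∈ F ∧ B.card = 1 := by
    intro B
    rw [hS1, Finset.mem_filter]
  have m2 : ∀ B, B ∈ S2 ↔ B ∈ F ∧ B.card = 2 := by
    intro B
    rw [hS2, Finset.mem_filter]
  have m3 : ∀ B, B ∈ S3 ↔ B ∈ F ∧ B.card = 3 := by
    intro B
    rw [hS3, Finset.mem_filter]
  have hcardF : F.card = S1.card + S2.card + S3.card := by
    have h := sum_by_card F hbd (fun _ => 1)
    rw [← hS1, ← hS2, ← hS3] at h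
    simp only [Finset.sum_const, smul_eq_mul, mul_one, one_mul] at h
    exact h
  have hc := stuck_count f 3 y F hk hmin hdisj hst
  rw [sum_by_card F hbd (fun c => if 2 ≤ c then c else 0), sum_by_card F hbd (fun c => 3 - c),
    ← hS1, ← hS2, ← hS3] at hc
  norm_num at hc
  have ha : S1.card ≤ 3 := by
    have h := singles_le f y F hy hmin hdisj
    rw [← hS1] at h
    exact h.trans (hs y)
  by_contra hcon
  have ha3 : S1.card = 3 := by omega
  -- the single coordinates
  obtain ⟨W, hWdef⟩ : ∃ W, W = S1.biUnion id := ⟨_, rfl⟩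
  have hWmem : ∀ w, w ∈ W ↔ {w} ∈ F := by
    intro w
    rw [hWdef, Finset.mem_biUnion]
    constructor
    · rintro ⟨B, hB, hwB⟩
      obtain ⟨hBF, hB1⟩ := (m1 B).mp hB
      obtain ⟨a, rfl⟩ := Finset.card_eq_one.mp hB1
      have hwa : w = a := Finset.mem_singleton.mp hwB
      rw [hwa]
      exact hBF
    · intro h
      exact ⟨{w}, (m1 _).mpr ⟨h, Finset.card_singleton w⟩, Finset.mem_singleton_self w⟩
  have hWc : W.card = 3 := by
    rw [hWdef, Finset.card_biUnion, ← ha3, Finset.card_eq_sum_ones]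
    · apply Finset.sum_congr rfl
      intro B hB
      exact ((m1 B).mp hB).2
    · intro B hB C hC hne
      exact hdisj B ((m1 B).mp hB).1 C ((m1 C).mp hC).1 hne
  -- the pair coordinates
  obtain ⟨P, hPdef⟩ : ∃ P, P = S2.biUnion id := ⟨_, rfl⟩
  have hPmem : ∀ q, q ∈ P ↔ ∃ B ∈ S2, q ∈ B := by
    intro q
    rw [hPdef, Finset.mem_biUnion]
    simp
  have hPc : P.card = 2 * S2.card := by
    rw [hPdef, Finset.card_biUnion, mul_comm, Finset.card_eq_sum_ones, Finset.sum_mul]
    · apply Finset.sum_congr rfl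
      intro B hB
      rw [one_mul]
      exact ((m2 B).mp hB).2
    · intro B hB C hC hne
      exact hdisj B ((m2 B).mp hB).1 C ((m2 C).mp hC).1 hne
  have hPW : ∀ q ∈ P, ∀ w ∈ W, q ≠ w := by
    intro q hq w hw hqw
    subst hqw
    obtain ⟨B, hB, hqB⟩ := (hPmem q).mp hq
    obtain ⟨hBF, hB2⟩ := (m2 B).mp hB
    have := hu B hBF {q} ((hWmem q).mp hw) q hqB (Finset.mem_singleton_self q)
    rw [this] at hB2
    simp at hB2
  obtain ⟨w₀, hw₀⟩ : W.Nonempty := Finset.card_pos.mp (by omega)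
  have hne : Nonempty ι := ⟨w₀⟩
  have fact1 : ∀ q ∈ P, ∃ w ∈ W, q ∈ killers f y {w} := by
    intro q hq
    obtain ⟨B, hB, hqB⟩ := (hPmem q).mp hq
    obtain ⟨hBF, hB2⟩ := (m2 B).mp hB
    exact pair_kills_single f 3 (fun z _ => hs z) y F hmin hdisj W
      (fun w hw => (hWmem w).mp hw) (by omega) B hBF hB2 q hqB
  choose! κ hκ using fact1
  have hK2 : ∀ w ∈ W, (killers f y {w}).card ≤ 2 := by
    intro w hw
    have h1 := card_add_killers_le (hmin {w} ((hWmem w).mp hw))
    have h2 := hs (flipOn y {w})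
    rw [Finset.card_singleton] at h1
    omega
  have hb3 : S2.card ≤ 3 := by
    have := card_le_of_kills P W κ (fun w => killers f y {w}) hκ hK2
    omega
  have hb : S2.card = 3 := by omega
  have hc3 : S3.card = 1 := by omega
  have hfib := fiber_full P W κ (fun w => killers f y {w}) hκ hK2 (by omega)
  have E1 : ∀ w ∈ W, ∀ z ∈ killers f y {w}, z ∈ P := by
    intro w hw z hz
    have h := hfib w hw
    rw [h] at hz
    exact (Finset.mem_filter.mp hz).1
  have E2 : ∀ q ∈ P, ∀ w ∈ W, q ∈ killers f y {w} → κ q = w := by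
    intro q _ w hw hz
    have h := hfib w hw
    rw [h] at hz
    exact (Finset.mem_filter.mp hz).2
  -- the triple
  obtain ⟨B₃, hB₃⟩ := Finset.card_eq_one.mp hc3
  have hB₃F : B₃ ∈ F ∧ B₃.card = 3 := (m3 B₃).mp (by rw [hB₃]; exact Finset.mem_singleton_self _)
  have hP3 : ∀ q ∈ P, q ∉ B₃ := by
    intro q hq hq3
    obtain ⟨B, hB, hqB⟩ := (hPmem q).mp hq
    obtain ⟨hBF, hB2⟩ := (m2 B).mp hB
    have := hu B hBF B₃ hB₃F.1 q hqB hq3
    rw [this] at hB2
    omega
  have hW3 : ∀ w ∈ W, w ∉ B₃ := by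
    intro w hw hw3
    have := hu {w} ((hWmem w).mp hw) B₃ hB₃F.1 w (Finset.mem_singleton_self w) hw3
    have h3 := hB₃F.2
    rw [← this] at h3
    simp at h3
  have hT : ∀ x ∈ B₃, ∃ B ∈ S2, x ∈ killers f y B := by
    intro x hx
    obtain ⟨B, hB, hneB, hfb⟩ := hst B₃ hB₃F.1 x hx (by omega)
    have hxB : x ∉ B := fun h => hneB (hu B hB B₃ hB₃F.1 x h hx)
    have hxk : x ∈ killers f y B := by
      simp only [killers, Finset.mem_filter, Finset.mem_univ, true_and]
      exact ⟨hxB, hfb⟩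
    obtain ⟨h1, h3⟩ := hbd B hB
    have hcases : B.card = 1 ∨ B.card = 2 ∨ B.card = 3 := by omega
    rcases hcases with c1 | c2 | c3
    · exfalso
      obtain ⟨w, rfl⟩ := Finset.card_eq_one.mp c1
      have hwW : w ∈ W := (hWmem w).mpr hB
      exact hP3 x (E1 w hwW x hxk) hx
    · exact ⟨B, (m2 B).mpr ⟨hB, c2⟩, hxk⟩
    · exfalso
      have : B ∈ S3 := (m3 B).mpr ⟨hB, c3⟩
      rw [hB₃] at this
      exact hneB (Finset.mem_singleton.mp this)
  have hK1 : ∀ B ∈ S2, (killers f y B).card ≤ 1 := by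
    intro B hB
    obtain ⟨hBF, hB2⟩ := (m2 B).mp hB
    have h1 := card_add_killers_le (hmin B hBF)
    have h2 := hs (flipOn y B)
    omega
  have E3 := killers_sub_of_inj B₃ S2 (killers f y) hK1 hT (by omega)
  have E3' : ∀ B ∈ S2, ∀ z, z ∉ B → z ∉ B₃ → f (flipOn y (insert z B)) = true := by
    intro B hB z hzB hz3
    by_contra hf
    apply hz3
    apply E3 B hB
    simp only [killers, Finset.mem_filter, Finset.mem_univ, true_and]
    exact ⟨hzB, by simpa using hf⟩
  -- choose a pair and apply the local lemma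
  obtain ⟨B₀, hB₀⟩ : S2.Nonempty := Finset.card_pos.mp (by omega)
  obtain ⟨hB₀F, hB₀2⟩ := (m2 B₀).mp hB₀
  obtain ⟨p, p', hpp', hB₀eq⟩ := Finset.card_eq_two.mp hB₀2
  subst hB₀eq
  have hpP : p ∈ P := (hPmem p).mpr ⟨_, hB₀, by simp⟩
  have hp'P : p' ∈ P := (hPmem p').mpr ⟨_, hB₀, by simp⟩
  obtain ⟨hw₁W, hkill⟩ := hκ p hpP
  obtain ⟨w₂, w₃, h23, hWe⟩ := Finset.card_eq_two.mp
    (by rw [Finset.card_erase_of_mem hw₁W, hWc] : (W.erase (κ p)).card = 2)
  have hw₂ : w₂ ∈ W ∧ w₂ ≠ κ p := by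
    have : w₂ ∈ W.erase (κ p) := by rw [hWe]; simp
    exact ⟨Finset.mem_of_mem_erase this, Finset.ne_of_mem_erase this⟩
  have hw₃ : w₃ ∈ W ∧ w₃ ≠ κ p := by
    have : w₃ ∈ W.erase (κ p) := by rw [hWe]; simp
    exact ⟨Finset.mem_of_mem_erase this, Finset.ne_of_mem_erase this⟩
  have hnotkill : ∀ w ∈ W, w ≠ κ p → f (flipOn y {p, w}) = true := by
    intro w hw hne'
    by_contra hf
    apply hne'
    refine (E2 p hpP w hw ?_).symm
    simp only [killers, Finset.mem_filter, Finset.mem_univ, true_and, Finset.mem_singleton]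
    exact ⟨hPW p hpP w hw, by simpa using hf⟩
  obtain ⟨Q, hQdef⟩ : ∃ Q, Q = P \ {p, p'} := ⟨_, rfl⟩
  have hQmem : ∀ q, q ∈ Q ↔ q ∈ P ∧ q ≠ p ∧ q ≠ p' := by
    intro q
    rw [hQdef, Finset.mem_sdiff]
    simp
  have hQc : 4 ≤ Q.card := by
    have hsub : ({p, p'} : Finset ι) ⊆ P := by
      intro i hi
      rcases Finset.mem_insert.mp hi with h | h
      · rw [h]; exact hpP
      · rw [Finset.mem_singleton.mp h]; exact hp'P
    rw [hQdef, Finset.card_sdiff_of_subset hsub, hPc, hb, hB₀2]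
  have partner : ∀ q ∈ Q, ∃ q', q' ≠ q ∧ ({q, q'} : Finset ι) ∈ S2 := by
    intro q hq
    obtain ⟨hqP, _, _⟩ := (hQmem q).mp hq
    obtain ⟨B, hB, hqB⟩ := (hPmem q).mp hqP
    obtain ⟨hBF, hB2⟩ := (m2 B).mp hB
    obtain ⟨q', hq'⟩ := Finset.card_eq_one.mp
      (by rw [Finset.card_erase_of_mem hqB, hB2] : (B.erase q).card = 1)
    have hq'mem : q' ∈ B.erase q := by rw [hq']; exact Finset.mem_singleton_self q'
    refine ⟨q', Finset.ne_of_mem_erase hq'mem, ?_⟩
    have : ({q, q'} : Finset ι) = B := by rw [← hq', Finset.insert_erase hqB]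
    rw [this]
    exact hB
  choose! π hπ using partner
  have hBq : ∀ q ∈ Q, p ∉ ({q, π q} : Finset ι) ∧ p' ∉ ({q, π q} : Finset ι) := by
    intro q hq
    obtain ⟨hqP, hqp, hqp'⟩ := (hQmem q).mp hq
    have hBqF := ((m2 _).mp (hπ q hq).2).1
    have hneB : ({q, π q} : Finset ι) ≠ {p, p'} := by
      intro h
      have : q ∈ ({p, p'} : Finset ι) := by rw [← h]; simp
      rcases Finset.mem_insert.mp this with h1 | h1
      · exact hqp h1
      · exact hqp' (Finset.mem_singleton.mp h1)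
    constructor
    · intro h
      exact hneB (hu _ hBqF _ hB₀F p h (by simp))
    · intro h
      exact hneB (hu _ hBqF _ hB₀F p' h (by simp))
  have hπP : ∀ q ∈ Q, π q ∈ P := fun q hq => (hPmem _).mpr ⟨_, (hπ q hq).2, by simp⟩
  apply Vale.Agent.Lib.Helper1.BlockSensLocal.local_contra f hs y (κ p) w₂ w₃ p p' Q π
    hw₂.2.symm hw₃.2.symm h23
    ⟨hPW p hpP _ hw₁W, hPW p hpP _ hw₂.1, hPW p hpP _ hw₃.1⟩
    ⟨hPW p' hp'P _ hw₁W, hPW p' hp'P _ hw₂.1, hPW p' hp'P _ hw₃.1⟩ hpp'
  · intro q hq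
    obtain ⟨hqP, hqp, hqp'⟩ := (hQmem q).mp hq
    exact ⟨hPW q hqP _ hw₁W, hPW q hqP _ hw₂.1, hPW q hqP _ hw₃.1, hqp, hqp'⟩
  · intro q hq
    obtain ⟨hp1, hp2⟩ := hBq q hq
    refine ⟨hPW _ (hπP q hq) _ hw₁W, hPW _ (hπP q hq) _ hw₂.1, hPW _ (hπP q hq) _ hw₃.1,
      ?_, ?_, (hπ q hq).1⟩
    · intro h
      apply hp1
      rw [← h]
      simp
    · intro h
      apply hp2
      rw [← h]
      simp
  · exact hQc
  · exact (hmin _ ((hWmem _).mp hw₁W)).1
  · have hss : ({p} : Finset ι) ⊂ {p, p'} := by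
      rw [Finset.ssubset_iff_subset_ne]
      refine ⟨by simp, ?_⟩
      intro h
      have : p' ∈ ({p} : Finset ι) := by rw [h]; simp
      exact hpp' (Finset.mem_singleton.mp this).symm
    exact (hmin _ hB₀F).2 _ hss
  · exact (hmin _ hB₀F).1
  · exact hnotkill w₂ hw₂.1 hw₂.2
  · exact hnotkill w₃ hw₃.1 hw₃.2
  · intro q hq
    obtain ⟨hqP, hqp, hqp'⟩ := (hQmem q).mp hq
    exact E3' _ hB₀ q (by simp [hqp, hqp']) (hP3 q hqP)
  · intro q hq
    exact E3' _ (hπ q hq).2 p (hBq q hq).1 (hP3 p hpP)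
  · have h1 := hPW p hpP _ hw₁W
    have h2 := hPW p' hp'P _ hw₁W
    exact E3' _ hB₀ (κ p) (by simp [h1.symm, h2.symm]) (hW3 _ hw₁W)

/-- A Boolean function all of whose inputs have sensitivity at most three has block
sensitivity at most six. -/
theorem bs_le_six {ι : Type*} [DecidableEq ι] [Fintype ι] (f : (ι → Bool) → Bool)
    (hs : ∀ z, sensAt f z ≤ 3) (x : ι → Bool) (F : Finset (Finset ι))
    (hF : IsBlockFamily f x F) : F.card ≤ 6 := by
  have main : ∀ g : (ι → Bool) → Bool, (∀ z, sensAt g z ≤ 3) → g x = false →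
      IsBlockFamily g x F → F.card ≤ 6 := by
    intro g hg hgx hgF
    obtain ⟨F', hmin, hdisj, hcard⟩ := exists_min_sys g x F hgx hgF
    obtain ⟨y', F'', hy', hmin', hdisj', hcard', hst⟩ :=
      reach_stuck g _ x F' hgx hmin hdisj le_rfl
    rw [← hcard, ← hcard']
    exact stuck_card_le_six g hg y' F'' hy' hmin' hdisj' hst
  cases hfx : f x with
  | false => exact main f hs hfx hF
  | true =>
    apply main (fun z => !(f z))
    · intro z
      rw [sensAt_not]
      exact hs z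
    · simp [hfx]
    · exact (isBlockFamily_not f x F).mpr hF

end Vale.Agent.Lib.Helper1.BlockSensThree
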