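import Mathlib

namespace Vale.Agent.Lib.Helper1.Moat



/-- A Gaussian prime divides some rational prime. -/
theorem exists_prime_dvd_of_prime (z : GaussianInt) (hz : Prime z) :
    ∃ p : ℕ, p.Prime ∧ z ∣ (p : GaussianInt) := by
  have hn0 : z.norm.natAbs ≠ 0 := by
    intro h
    have : z.norm = 0 := Int.natAbs_eq_zero.mp h
    exact hz.ne_zero (GaussianInt.norm_eq_zero.mp this)
  have hdvd : z ∣ ((z.norm.natAbs : ℕ) : GaussianInt) := by
    have h1 : ((z.norm.natAbs : ℕ) : GaussianInt) = z * star z := by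
      have : ((z.norm.natAbs : ℕ) : GaussianInt) = ((z.norm : ℤ) : GaussianInt) := by
        rw [← Int.cast_natCast, GaussianInt.abs_natCast_norm]
      rw [this, Zsqrtd.norm_eq_mul_conj]
    rw [h1]
    exact dvd_mul_right _ _
  have hprod : ((z.norm.natAbs : ℕ) : GaussianInt)
      = ((z.norm.natAbs.primeFactorsList).map (fun p : ℕ => (p : GaussianInt))).prod := by
    conv_lhs => rw [← Nat.prod_primeFactorsList hn0]
    rw [Nat.cast_list_prod]
  rw [hprod] at hdvd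
  obtain ⟨a, ha, hza⟩ := (Prime.dvd_prod_iff hz).mp hdvd
  obtain ⟨p, hp, rfl⟩ := List.mem_map.mp ha
  exact ⟨p, Nat.prime_of_mem_primeFactorsList hp, hza⟩

/-- If a rational prime `p` divides the norm of `z` and the norm exceeds `p ^ 2`, then `z` is
not a Gaussian prime. -/
theorem not_prime_of_dvd_norm (z : GaussianInt) (p : ℕ) (hp : p.Prime)
    (hdvd : (p : ℤ) ∣ z.norm) (hlt : (p : ℤ) ^ 2 < z.norm) : ¬ Prime z := by
  intro hz
  obtain ⟨q, hq, hzq⟩ := exists_prime_dvd_of_prime z hz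
  obtain ⟨c, hc⟩ := hzq
  have hnorm : (q : ℤ) * q = z.norm * c.norm := by
    have := congrArg Zsqrtd.norm hc
    rw [Zsqrtd.norm_mul, Zsqrtd.norm_natCast] at this
    exact this
  have hpq : (p : ℤ) ∣ (q : ℤ) * q := by
    rw [hnorm]; exact Dvd.dvd.mul_right hdvd _
  have hpq' : p ∣ q * q := by exact_mod_cast hpq
  have hpq'' : p ∣ q := by
    rcases (Nat.Prime.dvd_mul hp).mp hpq' with h | h <;> exact h
  have hpeq : p = q := (Nat.prime_dvd_prime_iff_eq hp hq).mp hpq''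
  subst hpeq
  have hcpos : 0 ≤ c.norm := GaussianInt.norm_nonneg c
  have hzpos : 0 ≤ z.norm := GaussianInt.norm_nonneg z
  have hc1 : 1 ≤ c.norm := by
    rcases hcpos.lt_or_eq with h | h
    · exact h
    · rw [← h] at hnorm
      simp at hnorm
      exact absurd hnorm hp.ne_zero
  nlinarith

/-- For a prime `p` with `p % 4 = 1` there is an integer `r` with `p ∣ r ^ 2 + 1`. -/
theorem exists_sq_add_one (p : ℕ) (hp : p.Prime) (h4 : p % 4 = 1) :
    ∃ r : ℤ, (p : ℤ) ∣ r ^ 2 + 1 := by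
  have : Fact p.Prime := ⟨hp⟩
  have h : IsSquare (-1 : ZMod p) := ZMod.exists_sq_eq_neg_one_iff.mpr (by omega)
  obtain ⟨y, hy⟩ := h
  refine ⟨(y.val : ℤ), ?_⟩
  rw [← ZMod.intCast_zmod_eq_zero_iff_dvd]
  push_cast
  simp only [ZMod.natCast_val, ZMod.cast_id', id_eq]
  rw [pow_two, ← hy]; ring

theorem dvd_sq_add_sq (p r x y : ℤ) (h1 : p ∣ r ^ 2 + 1) (h2 : p ∣ x - r * y) :
    p ∣ x ^ 2 + y ^ 2 := by
  have : x ^ 2 + y ^ 2 = (x - r * y) * (x + r * y) + y ^ 2 * (r ^ 2 + 1) := by ring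
  rw [this]
  exact dvd_add (Dvd.dvd.mul_right h2 _) (Dvd.dvd.mul_left h1 _)



/-- Solving one congruence: along the lattice line `(x + k a, y + k b)` with `a, b` coprime,
the points whose shift by `(u1, u2)` has norm divisible by `p` contain a residue class of `k`. -/
theorem local_solve (p : ℕ) (hp : p.Prime) (h4 : p % 4 = 1) (r : ℤ)
    (hr : (p : ℤ) ∣ r ^ 2 + 1) (a b x y u1 u2 : ℤ) (hab : IsCoprime a b) :
    ∃ kk : ℤ, ∀ k : ℤ, (p : ℤ) ∣ k - kk →
      (p : ℤ) ∣ (x + k * a + u1) ^ 2 + (y + k * b + u2) ^ 2 := by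
  have hpZ : Prime (p : ℤ) := Nat.prime_iff_prime_int.mp hp
  have hp2 : ¬ (p : ℤ) ∣ 2 := by
    intro h
    have h' : p ∣ 2 := by exact_mod_cast h
    have := Nat.le_of_dvd (by norm_num) h'
    interval_cases p <;> simp_all
  -- choose the sign of the root
  obtain ⟨t, ht, hnd⟩ : ∃ t : ℤ, (p : ℤ) ∣ t ^ 2 + 1 ∧ ¬ (p : ℤ) ∣ a - t * b := by
    by_cases h : (p : ℤ) ∣ a - r * b
    · refine ⟨-r, by simpa using hr, ?_⟩
      intro h'
      have hsum : (p : ℤ) ∣ 2 * a := by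
        have : 2 * a = (a - r * b) + (a - -r * b) := by ring
        rw [this]; exact dvd_add h h'
      have ha : (p : ℤ) ∣ a := (hpZ.dvd_or_dvd hsum).resolve_left hp2
      have hrb : (p : ℤ) ∣ r * b := by
        have : r * b = a - (a - r * b) := by ring
        rw [this]; exact dvd_sub ha h
      have hnr : ¬ (p : ℤ) ∣ r := by
        intro hdr
        have : (p : ℤ) ∣ 1 := by
          have h1 : (p : ℤ) ∣ r ^ 2 := Dvd.dvd.pow hdr (by norm_num)
          have : (1 : ℤ) = (r ^ 2 + 1) - r ^ 2 := by ring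
          rw [this]; exact dvd_sub hr h1
        exact hpZ.not_dvd_one this
      have hb : (p : ℤ) ∣ b := (hpZ.dvd_or_dvd hrb).resolve_left hnr
      exact hpZ.not_isUnit (hab.isUnit_of_dvd' ha hb)
    · exact ⟨r, hr, h⟩
  have hcop : IsCoprime (p : ℤ) (a - t * b) := (hpZ.irreducible.coprime_iff_not_dvd).mpr hnd
  obtain ⟨m, n, hmn⟩ := hcop
  refine ⟨n * (t * (y + u2) - (x + u1)), fun k hk => ?_⟩
  apply dvd_sq_add_sq (p : ℤ) t _ _ ht
  have : (x + k * a + u1) - t * (y + k * b + u2)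
      = (k - n * (t * (y + u2) - (x + u1))) * (a - t * b)
        - (t * (y + u2) - (x + u1)) * m * p := by
    have h1 : n * (a - t * b) = 1 - m * p := by linarith
    linear_combination (t * (y + u2) - (x + u1)) * h1
  rw [this]
  exact dvd_sub (Dvd.dvd.mul_right hk _) (dvd_mul_left _ _)


/-- The `n`-th prime congruent to `1` modulo `4`, indexed injectively by lattice offsets. -/
noncomputable def pr (u : ℤ × ℤ) : ℕ :=
  Nat.nth (fun q : ℕ => q.Prime ∧ q ≡ 1 [MOD 4]) (Encodable.encode u)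

theorem pr_infinite : (Set.ofPred (fun q : ℕ => q.Prime ∧ q ≡ 1 [MOD 4])).Infinite :=
  Nat.infinite_setOfPred_prime_modEq_one (by norm_num)

theorem pr_prime (u : ℤ × ℤ) : (pr u).Prime :=
  (Nat.nth_mem_of_infinite pr_infinite (Encodable.encode u)).1

theorem pr_mod (u : ℤ × ℤ) : pr u % 4 = 1 :=
  (Nat.nth_mem_of_infinite pr_infinite (Encodable.encode u)).2

theorem pr_injective : Function.Injective pr := by
  intro u v h
  have := (Nat.nth_strictMono pr_infinite).injective h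
  exact Encodable.encode_injective this

/-- Simultaneous solution: for every finite set `U` of offsets there are a period `P` and a
bound `B` such that along any primitive lattice line some `k < P` makes every shifted point
have norm divisible by a prime at most `B`. -/
theorem exists_shift (U : Finset (ℤ × ℤ)) :
    ∃ (P B : ℕ), 0 < P ∧ ∀ (a b x y : ℤ), IsCoprime a b →
      ∃ k : ℕ, k < P ∧ ∀ u ∈ U, ∃ q : ℕ, q.Prime ∧ q ≤ B ∧
        (q : ℤ) ∣ (x + k * a + u.1) ^ 2 + (y + k * b + u.2) ^ 2 := by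
  refine ⟨∏ u ∈ U, pr u, ∑ u ∈ U, pr u, ?_, ?_⟩
  · exact Finset.prod_pos (fun u _ => (pr_prime u).pos)
  intro a b x y hab
  have hloc : ∀ u : ℤ × ℤ, ∃ kk : ℤ, ∀ k : ℤ, (pr u : ℤ) ∣ k - kk →
      (pr u : ℤ) ∣ (x + k * a + u.1) ^ 2 + (y + k * b + u.2) ^ 2 := by
    intro u
    obtain ⟨r, hr⟩ := exists_sq_add_one (pr u) (pr_prime u) (pr_mod u)
    exact local_solve (pr u) (pr_prime u) (pr_mod u) r hr a b x y u.1 u.2 hab
  choose kk hkk using hloc
  have hs : ∀ u ∈ U, pr u ≠ 0 := fun u _ => (pr_prime u).ne_zero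
  have hpp : (U : Set (ℤ × ℤ)).Pairwise (Function.onFun Nat.Coprime pr) := by
    intro u _ v _ huv
    exact (Nat.coprime_primes (pr_prime u) (pr_prime v)).mpr (fun h => huv (pr_injective h))
  obtain ⟨k0, hk0⟩ := Nat.chineseRemainderOfFinset (fun u => (kk u % (pr u : ℤ)).toNat) pr U hs hpp
  refine ⟨k0 % (∏ u ∈ U, pr u), Nat.mod_lt _ (Finset.prod_pos (fun u _ => (pr_prime u).pos)), ?_⟩
  intro u hu
  refine ⟨pr u, pr_prime u, Finset.single_le_sum (fun v _ => Nat.zero_le (pr v)) hu, ?_⟩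
  apply hkk u
  have hpos : (0 : ℤ) < pr u := by exact_mod_cast (pr_prime u).pos
  have h1 : (pr u : ℤ) ∣ ((k0 % (∏ u ∈ U, pr u) : ℕ) : ℤ) - (k0 : ℤ) := by
    have hd : (pr u : ℤ) ∣ ((∏ u ∈ U, pr u : ℕ) : ℤ) := by
      exact_mod_cast Finset.dvd_prod_of_mem pr hu
    have : ((k0 % (∏ u ∈ U, pr u) : ℕ) : ℤ) - (k0 : ℤ)
        = -(((∏ u ∈ U, pr u : ℕ) : ℤ) * ((k0 / (∏ u ∈ U, pr u) : ℕ) : ℤ)) := by
      have := Nat.mod_add_div k0 (∏ u ∈ U, pr u)
      have h2 : ((k0 % (∏ u ∈ U, pr u) : ℕ) : ℤ) + ((∏ u ∈ U, pr u : ℕ) : ℤ) * ((k0 / (∏ u ∈ U, pr u) : ℕ) : ℤ) = (k0 : ℤ) := by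
        exact_mod_cast this
      linarith
    rw [this]
    exact (Dvd.dvd.mul_right hd _).neg_right
  have h2 : (pr u : ℤ) ∣ (k0 : ℤ) - kk u := by
    have h3 := hk0 u hu
    have h4 : ((k0 : ℕ) : ℤ) ≡ (((kk u % (pr u : ℤ)).toNat : ℕ) : ℤ) [ZMOD (pr u : ℤ)] :=
      (Int.natCast_modEq_iff).mpr h3
    rw [Int.toNat_of_nonneg (Int.emod_nonneg _ hpos.ne')] at h4
    have h5 : (k0 : ℤ) ≡ kk u [ZMOD (pr u : ℤ)] := h4.trans (Int.mod_modEq _ _)
    exact (Int.modEq_iff_dvd.mp h5.symm)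
  have : ((k0 % (∏ u ∈ U, pr u) : ℕ) : ℤ) - kk u
      = (((k0 % (∏ u ∈ U, pr u) : ℕ) : ℤ) - (k0 : ℤ)) + ((k0 : ℤ) - kk u) := by ring
  rw [this]
  exact dvd_add h1 h2



theorem abs_mul_le_mul {x y a b : ℝ} (hx : |x| ≤ a) (hy : |y| ≤ b) : |x * y| ≤ a * b := by
  rw [abs_mul]
  exact mul_le_mul hx hy (abs_nonneg y) (le_trans (abs_nonneg x) hx)

theorem abs_le_one_of_sq_add_sq {e1 e2 : ℝ} (he : e1 ^ 2 + e2 ^ 2 = 1) : |e1| ≤ 1 := by
  apply abs_le.mpr
  constructor <;> nlinarith [sq_nonneg e2, sq_nonneg (e1 + 1), sq_nonneg (e1 - 1)]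

/-- Dirichlet approximation of a direction by a nonzero lattice vector. -/
theorem exists_approx (e1 e2 : ℝ) (he : e1 ^ 2 + e2 ^ 2 = 1) (N : ℕ) (hN : 0 < N) :
    ∃ a b : ℤ, (a ≠ 0 ∨ b ≠ 0) ∧ |(b : ℝ) * e1 - (a : ℝ) * e2| ≤ 1 / ((N : ℝ) + 1) := by
  have h1 : |e1| ≤ 1 := abs_le_one_of_sq_add_sq he
  have h2 : |e2| ≤ 1 := abs_le_one_of_sq_add_sq (e1 := e2) (e2 := e1) (by linarith)
  have hpos : (0 : ℝ) ≤ 1 / ((N : ℝ) + 1) := by positivity
  by_cases h : |e2| ≤ |e1|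
  · have he1 : e1 ≠ 0 := by
      intro h0
      rw [h0, abs_zero] at h
      have : e2 = 0 := abs_eq_zero.mp (le_antisymm h (abs_nonneg _))
      rw [h0, this] at he
      norm_num at he
    obtain ⟨j, k, hk0, _, habs⟩ := Real.exists_int_int_abs_mul_sub_le (e2 / e1) hN
    refine ⟨k, j, Or.inl hk0.ne', ?_⟩
    have : (j : ℝ) * e1 - (k : ℝ) * e2 = -(e1 * ((k : ℝ) * (e2 / e1) - j)) := by
      field_simp
      ring
    rw [this, abs_neg]
    calc |e1 * ((k : ℝ) * (e2 / e1) - j)| ≤ 1 * (1 / ((N : ℝ) + 1)) := abs_mul_le_mul h1 habs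
      _ = 1 / ((N : ℝ) + 1) := one_mul _
  · have he2 : e2 ≠ 0 := by
      intro h0
      rw [h0, abs_zero] at h
      exact h (abs_nonneg _)
    obtain ⟨j, k, hk0, _, habs⟩ := Real.exists_int_int_abs_mul_sub_le (e1 / e2) hN
    refine ⟨j, k, Or.inr hk0.ne', ?_⟩
    have : (k : ℝ) * e1 - (j : ℝ) * e2 = e2 * ((k : ℝ) * (e1 / e2) - j) := by
      field_simp
    rw [this]
    calc |e2 * ((k : ℝ) * (e1 / e2) - j)| ≤ 1 * (1 / ((N : ℝ) + 1)) := abs_mul_le_mul h2 habs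
      _ = 1 / ((N : ℝ) + 1) := one_mul _

/-- The approximating vector can be taken primitive. -/
theorem exists_primitive_approx (e1 e2 : ℝ) (he : e1 ^ 2 + e2 ^ 2 = 1) (N : ℕ) (hN : 0 < N) :
    ∃ a b : ℤ, IsCoprime a b ∧ |(b : ℝ) * e1 - (a : ℝ) * e2| ≤ 1 / ((N : ℝ) + 1) := by
  obtain ⟨a0, b0, hne, h⟩ := exists_approx e1 e2 he N hN
  have hg : 0 < Int.gcd a0 b0 := by
    rcases hne with h0 | h0
    · exact Int.gcd_pos_of_ne_zero_left _ h0
    · exact Int.gcd_pos_of_ne_zero_right _ h0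
  obtain ⟨a, b, hab, ha, hb⟩ := Int.exists_gcd_one hg
  refine ⟨a, b, Int.isCoprime_iff_gcd_eq_one.mpr hab, ?_⟩
  have hg1 : (1 : ℝ) ≤ (Int.gcd a0 b0 : ℝ) := by exact_mod_cast hg
  have hEq : (b0 : ℝ) * e1 - (a0 : ℝ) * e2
      = (Int.gcd a0 b0 : ℝ) * ((b : ℝ) * e1 - (a : ℝ) * e2) := by
    have ha' : (a0 : ℝ) = (a : ℝ) * (Int.gcd a0 b0 : ℝ) := by exact_mod_cast congrArg (Int.cast : ℤ → ℝ) ha
    have hb' : (b0 : ℝ) = (b : ℝ) * (Int.gcd a0 b0 : ℝ) := by exact_mod_cast congrArg (Int.cast : ℤ → ℝ) hb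
    rw [ha', hb']; ring
  rw [hEq, abs_mul, abs_of_pos (by linarith)] at h
  calc |(b : ℝ) * e1 - (a : ℝ) * e2| ≤ (Int.gcd a0 b0 : ℝ) * |(b : ℝ) * e1 - (a : ℝ) * e2| := by
        nlinarith [abs_nonneg ((b : ℝ) * e1 - (a : ℝ) * e2)]
    _ ≤ 1 / ((N : ℝ) + 1) := h



/-- Real estimate: distance of the shifted rounded point from the line. -/
theorem center_dist (e1 e2 w1 w2 T x1 y1 k P a b : ℝ) (he : e1 ^ 2 + e2 ^ 2 = 1)
    (hdx : |(w1 + T * e1) - x1| ≤ 1 / 2) (hdy : |(w2 + T * e2) - y1| ≤ 1 / 2)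
    (hk0 : 0 ≤ k) (hkP : k < P) (happ : |b * e1 - a * e2| ≤ 1 / (P + 1)) :
    |((y1 + k * b) - w2) * e1 - ((x1 + k * a) - w1) * e2| ≤ 2 := by
  have h1 : |e1| ≤ 1 := abs_le_one_of_sq_add_sq he
  have h2 : |e2| ≤ 1 := abs_le_one_of_sq_add_sq (e1 := e2) (e2 := e1) (by linarith)
  have hPpos : (0 : ℝ) < P := lt_of_le_of_lt hk0 hkP
  have hE : ((y1 + k * b) - w2) * e1 - ((x1 + k * a) - w1) * e2
      = (((w1 + T * e1) - x1) * e2 - ((w2 + T * e2) - y1) * e1) + k * (b * e1 - a * e2) := by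
    ring
  rw [hE]
  have hA : |((w1 + T * e1) - x1) * e2 - ((w2 + T * e2) - y1) * e1| ≤ 1 := by
    have ha1 := abs_mul_le_mul hdx h2
    have ha2 := abs_mul_le_mul hdy h1
    have := abs_sub (((w1 + T * e1) - x1) * e2) (((w2 + T * e2) - y1) * e1)
    linarith
  have hB : |k * (b * e1 - a * e2)| ≤ 1 := by
    rw [abs_mul, abs_of_nonneg hk0]
    have hle : k * |b * e1 - a * e2| ≤ P * (1 / (P + 1)) :=
      mul_le_mul hkP.le happ (abs_nonneg _) hPpos.le
    have : P * (1 / (P + 1)) ≤ 1 := by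
      rw [mul_one_div, div_le_one (by linarith)]; linarith
    linarith
  have := abs_add_le (((w1 + T * e1) - x1) * e2 - ((w2 + T * e2) - y1) * e1)
    (k * (b * e1 - a * e2))
  linarith

/-- Real estimate: position of the shifted rounded point along the line, including an offset. -/
theorem center_pos (e1 e2 w1 w2 T x1 y1 k P a b u1 u2 : ℝ) (he : e1 ^ 2 + e2 ^ 2 = 1)
    (hdx : |(w1 + T * e1) - x1| ≤ 1 / 2) (hdy : |(w2 + T * e2) - y1| ≤ 1 / 2)
    (hk0 : 0 ≤ k) (hkP : k < P) :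
    T - 1 - P * (|a| + |b|) - (|u1 + w1| + |u2 + w2|)
      ≤ (x1 + k * a + u1) * e1 + (y1 + k * b + u2) * e2 := by
  have h1 : |e1| ≤ 1 := abs_le_one_of_sq_add_sq he
  have h2 : |e2| ≤ 1 := abs_le_one_of_sq_add_sq (e1 := e2) (e2 := e1) (by linarith)
  have hPpos : (0 : ℝ) < P := lt_of_le_of_lt hk0 hkP
  have hE : (x1 + k * a + u1) * e1 + (y1 + k * b + u2) * e2
      = T * (e1 ^ 2 + e2 ^ 2) - (((w1 + T * e1) - x1) * e1 + ((w2 + T * e2) - y1) * e2)
        + k * (a * e1 + b * e2) + ((u1 + w1) * e1 + (u2 + w2) * e2) := by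
    ring
  rw [hE, he]
  have hA : |((w1 + T * e1) - x1) * e1 + ((w2 + T * e2) - y1) * e2| ≤ 1 := by
    have ha1 := abs_mul_le_mul hdx h1
    have ha2 := abs_mul_le_mul hdy h2
    have := abs_add_le (((w1 + T * e1) - x1) * e1) (((w2 + T * e2) - y1) * e2)
    linarith
  have hB : |k * (a * e1 + b * e2)| ≤ P * (|a| + |b|) := by
    rw [abs_mul, abs_of_nonneg hk0]
    have hb1 : |a * e1| ≤ |a| * 1 := abs_mul_le_mul le_rfl h1
    have hb2 : |b * e2| ≤ |b| * 1 := abs_mul_le_mul le_rfl h2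
    have hb3 : |a * e1 + b * e2| ≤ |a| + |b| := by
      have := abs_add_le (a * e1) (b * e2)
      linarith
    exact mul_le_mul hkP.le hb3 (abs_nonneg _) hPpos.le
  have hC : |(u1 + w1) * e1 + (u2 + w2) * e2| ≤ |u1 + w1| + |u2 + w2| := by
    have hc1 : |(u1 + w1) * e1| ≤ |u1 + w1| * 1 := abs_mul_le_mul le_rfl h1
    have hc2 : |(u2 + w2) * e2| ≤ |u2 + w2| * 1 := abs_mul_le_mul le_rfl h2
    have := abs_add_le ((u1 + w1) * e1) ((u2 + w2) * e2)
    linarith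
  have := (abs_le.mp hA).2
  have := (abs_le.mp hB).1
  have := (abs_le.mp hC).1
  linarith

theorem sq_lt_of_proj (X Y e1 e2 q B : ℝ) (he : e1 ^ 2 + e2 ^ 2 = 1) (hq0 : 0 ≤ q)
    (hqB : q ≤ B) (h : B + 1 ≤ X * e1 + Y * e2) : q ^ 2 < X ^ 2 + Y ^ 2 := by
  have hCS : (X * e1 + Y * e2) ^ 2 ≤ X ^ 2 + Y ^ 2 := by
    nlinarith [sq_nonneg (X * e2 - Y * e1)]
  nlinarith

/-- Key lemma: near any line (unit direction `(e1, e2)`, base point `(w1, w2)`) and arbitrarily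
far along it, there is a lattice point `c` within distance `2` of the line such that no lattice
point of the box of half-side `m` around `c` is a Gaussian prime. -/
theorem exists_center (e1 e2 w1 w2 : ℝ) (he : e1 ^ 2 + e2 ^ 2 = 1) (m : ℕ) (S : ℝ) :
    ∃ cx cy : ℤ, |((cy : ℝ) - w2) * e1 - ((cx : ℝ) - w1) * e2| ≤ 2 ∧
      S < ((cx : ℝ) - w1) * e1 + ((cy : ℝ) - w2) * e2 ∧
      ∀ u1 u2 : ℤ, |u1| ≤ m → |u2| ≤ m → ¬ Prime (⟨cx + u1, cy + u2⟩ : GaussianInt) := by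
  obtain ⟨P, B, hP, hshift⟩ :=
    exists_shift (Finset.Icc (-(m : ℤ)) m ×ˢ Finset.Icc (-(m : ℤ)) m)
  obtain ⟨a, b, hab, happ⟩ := exists_primitive_approx e1 e2 he P hP
  obtain ⟨T, hT⟩ : ∃ T : ℝ, T = max S ((B : ℝ) + 2 * m + |w1| + |w2|)
      + P * (|(a : ℝ)| + |(b : ℝ)|) + (2 * m + |w1| + |w2|) + 2 := ⟨_, rfl⟩
  obtain ⟨x1, hx1⟩ : ∃ x1 : ℤ, x1 = round (w1 + T * e1) := ⟨_, rfl⟩
  obtain ⟨y1, hy1⟩ : ∃ y1 : ℤ, y1 = round (w2 + T * e2) := ⟨_, rfl⟩
  obtain ⟨k, hkP, hk⟩ := hshift a b x1 y1 hab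
  have hdx : |(w1 + T * e1) - (x1 : ℝ)| ≤ 1 / 2 := by rw [hx1]; exact abs_sub_round _
  have hdy : |(w2 + T * e2) - (y1 : ℝ)| ≤ 1 / 2 := by rw [hy1]; exact abs_sub_round _
  have hkP' : (k : ℝ) < P := by exact_mod_cast hkP
  have hk0 : (0 : ℝ) ≤ k := Nat.cast_nonneg k
  have hm0 : (0 : ℝ) ≤ m := Nat.cast_nonneg m
  have hS1 : S ≤ max S ((B : ℝ) + 2 * m + |w1| + |w2|) := le_max_left _ _
  have hS2 : (B : ℝ) + 2 * m + |w1| + |w2| ≤ max S ((B : ℝ) + 2 * m + |w1| + |w2|) :=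
    le_max_right _ _
  refine ⟨x1 + k * a, y1 + k * b, ?_, ?_, ?_⟩
  · have := center_dist e1 e2 w1 w2 T x1 y1 k P a b he hdx hdy hk0 hkP' happ
    push_cast
    exact this
  · have := center_pos e1 e2 w1 w2 T x1 y1 k P a b (-w1) (-w2) he hdx hdy hk0 hkP'
    simp only [neg_add_cancel, abs_zero, add_zero, sub_zero] at this
    push_cast
    have e : ((x1 : ℝ) + k * a - w1) * e1 + ((y1 : ℝ) + k * b - w2) * e2
        = ((x1 : ℝ) + k * a + -w1) * e1 + ((y1 : ℝ) + k * b + -w2) * e2 := by ring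
    rw [e]
    linarith [abs_nonneg w1, abs_nonneg w2]
  · intro u1 u2 hu1 hu2
    have hmem : (u1, u2) ∈ Finset.Icc (-(m : ℤ)) m ×ˢ Finset.Icc (-(m : ℤ)) m := by
      rw [Finset.mem_product, Finset.mem_Icc, Finset.mem_Icc]
      exact ⟨abs_le.mp hu1, abs_le.mp hu2⟩
    obtain ⟨q, hq, hqB, hqd⟩ := hk (u1, u2) hmem
    have hu1' : |(u1 : ℝ)| ≤ m := by exact_mod_cast hu1
    have hu2' : |(u2 : ℝ)| ≤ m := by exact_mod_cast hu2
    have hpos := center_pos e1 e2 w1 w2 T x1 y1 k P a b u1 u2 he hdx hdy hk0 hkP'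
    have hc1 : |(u1 : ℝ) + w1| ≤ m + |w1| := le_trans (abs_add_le _ _) (by linarith)
    have hc2 : |(u2 : ℝ) + w2| ≤ m + |w2| := le_trans (abs_add_le _ _) (by linarith)
    have hreal : (q : ℝ) ^ 2 < ((x1 : ℝ) + k * a + u1) ^ 2 + ((y1 : ℝ) + k * b + u2) ^ 2 := by
      apply sq_lt_of_proj _ _ e1 e2 q B he (Nat.cast_nonneg q) (by exact_mod_cast hqB)
      linarith [abs_nonneg w1, abs_nonneg w2]
    have hint : (q : ℤ) ^ 2 < (x1 + k * a + u1) ^ 2 + (y1 + k * b + u2) ^ 2 := by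
      exact_mod_cast hreal
    have hnorm : (⟨x1 + k * a + u1, y1 + k * b + u2⟩ : GaussianInt).norm
        = (x1 + k * a + u1) ^ 2 + (y1 + k * b + u2) ^ 2 := by
      rw [Zsqrtd.norm_def]; ring
    apply not_prime_of_dvd_norm _ q hq
    · rw [hnorm]; exact hqd
    · rw [hnorm]; exact hint



/-- Wall lemma: a Gaussian prime in the strip cannot be within `D` (along the line) of a
composite centre. -/
theorem wall (e1 e2 w1 w2 R D : ℝ) (he : e1 ^ 2 + e2 ^ 2 = 1) (hR : 0 ≤ R) (hD : 0 ≤ D)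
    (m : ℕ) (hm : R + D + 2 ≤ m) (cx cy : ℤ)
    (hc : |((cy : ℝ) - w2) * e1 - ((cx : ℝ) - w1) * e2| ≤ 2)
    (hnp : ∀ u1 u2 : ℤ, |u1| ≤ m → |u2| ≤ m → ¬ Prime (⟨cx + u1, cy + u2⟩ : GaussianInt))
    (g : GaussianInt) (hg : Prime g)
    (hgd : |((g.im : ℝ) - w2) * e1 - ((g.re : ℝ) - w1) * e2| ≤ R)
    (hgs : |(((g.re : ℝ) - w1) * e1 + ((g.im : ℝ) - w2) * e2)
      - (((cx : ℝ) - w1) * e1 + ((cy : ℝ) - w2) * e2)| ≤ D) : False := by
  have hm0 : (0 : ℝ) ≤ m := by linarith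
  have key : ((g.re : ℝ) - cx) ^ 2 + ((g.im : ℝ) - cy) ^ 2 ≤ (m : ℝ) ^ 2 := by
    have hid : ((g.re : ℝ) - cx) ^ 2 + ((g.im : ℝ) - cy) ^ 2
        = ((((g.re : ℝ) - w1) * e1 + ((g.im : ℝ) - w2) * e2)
            - (((cx : ℝ) - w1) * e1 + ((cy : ℝ) - w2) * e2)) ^ 2
          + ((((g.im : ℝ) - w2) * e1 - ((g.re : ℝ) - w1) * e2)
            - (((cy : ℝ) - w2) * e1 - ((cx : ℝ) - w1) * e2)) ^ 2 := by
      have : ((g.re : ℝ) - cx) ^ 2 + ((g.im : ℝ) - cy) ^ 2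
          = (((g.re : ℝ) - cx) ^ 2 + ((g.im : ℝ) - cy) ^ 2) * (e1 ^ 2 + e2 ^ 2) := by
        rw [he, mul_one]
      rw [this]; ring
    rw [hid]
    have h1 := abs_le.mp hgs
    have h2 := abs_le.mp hgd
    have h3 := abs_le.mp hc
    have hA : ((((g.re : ℝ) - w1) * e1 + ((g.im : ℝ) - w2) * e2)
            - (((cx : ℝ) - w1) * e1 + ((cy : ℝ) - w2) * e2)) ^ 2 ≤ D ^ 2 := by
      apply sq_le_sq' <;> linarith
    have hB : ((((g.im : ℝ) - w2) * e1 - ((g.re : ℝ) - w1) * e2)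
            - (((cy : ℝ) - w2) * e1 - ((cx : ℝ) - w1) * e2)) ^ 2 ≤ (R + 2) ^ 2 := by
      apply sq_le_sq' <;> linarith
    nlinarith
  have hu1 : |g.re - cx| ≤ (m : ℤ) := by
    have : |((g.re - cx : ℤ) : ℝ)| ≤ (m : ℝ) := by
      push_cast
      apply abs_le_of_sq_le_sq _ hm0
      nlinarith [sq_nonneg ((g.im : ℝ) - cy)]
    exact_mod_cast this
  have hu2 : |g.im - cy| ≤ (m : ℤ) := by
    have : |((g.im - cy : ℤ) : ℝ)| ≤ (m : ℝ) := by
      push_cast
      apply abs_le_of_sq_le_sq _ hm0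
      nlinarith [sq_nonneg ((g.re : ℝ) - cx)]
    exact_mod_cast this
  apply hnp (g.re - cx) (g.im - cy) hu1 hu2
  have : (⟨cx + (g.re - cx), cy + (g.im - cy)⟩ : GaussianInt) = g := by
    apply Zsqrtd.ext <;> simp
  rw [this]; exact hg

/-- One-sided bound: a bounded-step walk on Gaussian primes inside a strip around a line cannot
go arbitrarily far in the direction `(e1, e2)`. -/
theorem one_sided (e1 e2 w1 w2 R D : ℝ) (he : e1 ^ 2 + e2 ^ 2 = 1) (hR : 0 ≤ R) (hD : 0 ≤ D)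
    (z : ℕ → GaussianInt) (hz : ∀ n, Prime (z n))
    (hd : ∀ n, |(((z n).im : ℝ) - w2) * e1 - (((z n).re : ℝ) - w1) * e2| ≤ R)
    (hs : ∀ n, |((((z (n + 1)).re : ℝ) - w1) * e1 + (((z (n + 1)).im : ℝ) - w2) * e2)
      - ((((z n).re : ℝ) - w1) * e1 + (((z n).im : ℝ) - w2) * e2)| ≤ D) :
    ∃ K : ℝ, ∀ n, (((z n).re : ℝ) - w1) * e1 + (((z n).im : ℝ) - w2) * e2 < K := by
  obtain ⟨m, hm⟩ := exists_nat_ge (R + D + 2)
  obtain ⟨cx, cy, hc, hS, hnp⟩ := exists_center e1 e2 w1 w2 he m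
    (((((z 0).re : ℝ) - w1) * e1 + (((z 0).im : ℝ) - w2) * e2) + D)
  refine ⟨(((cx : ℝ) - w1) * e1 + ((cy : ℝ) - w2) * e2) - D, fun n => ?_⟩
  induction n with
  | zero => linarith
  | succ n ih =>
    by_contra hcon
    rw [not_lt] at hcon
    have h1 := abs_le.mp (hs n)
    apply wall e1 e2 w1 w2 R D he hR hD m hm cx cy hc hnp (z (n + 1)) (hz (n + 1)) (hd (n + 1))
    apply abs_le.mpr
    constructor <;> linarith



theorem re_sub_line (g : GaussianInt) (w v : ℂ) (t : ℝ) :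
    (GaussianInt.toComplex g - (w + (t : ℂ) * v)).re = (g.re : ℝ) - w.re - t * v.re := by
  rw [Complex.sub_re, Complex.add_re, Complex.re_ofReal_mul, ← GaussianInt.intCast_re]
  ring

theorem im_sub_line (g : GaussianInt) (w v : ℂ) (t : ℝ) :
    (GaussianInt.toComplex g - (w + (t : ℂ) * v)).im = (g.im : ℝ) - w.im - t * v.im := by
  rw [Complex.sub_im, Complex.add_im, Complex.im_ofReal_mul, ← GaussianInt.intCast_im]
  ring

theorem re_sub_gauss (g h : GaussianInt) :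
    (GaussianInt.toComplex g - GaussianInt.toComplex h).re = (g.re : ℝ) - (h.re : ℝ) := by
  rw [Complex.sub_re, ← GaussianInt.intCast_re, ← GaussianInt.intCast_re]

theorem im_sub_gauss (g h : GaussianInt) :
    (GaussianInt.toComplex g - GaussianInt.toComplex h).im = (g.im : ℝ) - (h.im : ℝ) := by
  rw [Complex.sub_im, ← GaussianInt.intCast_im, ← GaussianInt.intCast_im]



/-- Projections of a complex number onto a unit direction and its normal are bounded by the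
norm. -/
theorem abs_proj_le (δ : ℂ) (e1 e2 : ℝ) (he : e1 ^ 2 + e2 ^ 2 = 1) :
    |δ.re * e1 + δ.im * e2| ≤ ‖δ‖ ∧ |δ.im * e1 - δ.re * e2| ≤ ‖δ‖ := by
  have hn : ‖δ‖ ^ 2 = δ.re * δ.re + δ.im * δ.im := by
    rw [Complex.sq_norm, Complex.normSq_apply]
  constructor
  · apply abs_le_of_sq_le_sq _ (norm_nonneg δ)
    rw [hn]; nlinarith [sq_nonneg (δ.re * e2 - δ.im * e1)]
  · apply abs_le_of_sq_le_sq _ (norm_nonneg δ)
    rw [hn]; nlinarith [sq_nonneg (δ.re * e1 + δ.im * e2)]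

/-- Real-coordinate form of the strip theorem. -/
theorem no_walk_real (e1 e2 w1 w2 R D : ℝ) (he : e1 ^ 2 + e2 ^ 2 = 1) (hR : 0 ≤ R) (hD : 0 ≤ D)
    (z : ℕ → GaussianInt) (hinj : Function.Injective z) (hz : ∀ n, Prime (z n))
    (hd : ∀ n, |(((z n).im : ℝ) - w2) * e1 - (((z n).re : ℝ) - w1) * e2| ≤ R)
    (hs : ∀ n, |((((z (n + 1)).re : ℝ) - w1) * e1 + (((z (n + 1)).im : ℝ) - w2) * e2)
      - ((((z n).re : ℝ) - w1) * e1 + (((z n).im : ℝ) - w2) * e2)| ≤ D) : False := by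
  obtain ⟨K1, hK1⟩ := one_sided e1 e2 w1 w2 R D he hR hD z hz hd hs
  have he' : (-e1) ^ 2 + (-e2) ^ 2 = 1 := by rw [neg_sq, neg_sq]; exact he
  obtain ⟨K2, hK2⟩ := one_sided (-e1) (-e2) w1 w2 R D he' hR hD z hz
    (fun n => by
      have := hd n
      have e : (((z n).im : ℝ) - w2) * -e1 - (((z n).re : ℝ) - w1) * -e2
          = -((((z n).im : ℝ) - w2) * e1 - (((z n).re : ℝ) - w1) * e2) := by ring
      rw [e, abs_neg]; exact this)
    (fun n => by
      have := hs n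
      have e : ((((z (n + 1)).re : ℝ) - w1) * -e1 + (((z (n + 1)).im : ℝ) - w2) * -e2)
          - ((((z n).re : ℝ) - w1) * -e1 + (((z n).im : ℝ) - w2) * -e2)
          = -(((((z (n + 1)).re : ℝ) - w1) * e1 + (((z (n + 1)).im : ℝ) - w2) * e2)
          - ((((z n).re : ℝ) - w1) * e1 + (((z n).im : ℝ) - w2) * e2)) := by ring
      rw [e, abs_neg]; exact this)
  -- all points lie in a bounded box
  obtain ⟨M, hM⟩ := exists_nat_ge (max K1 K2 + R + |w1| + |w2|)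
  have hbound : ∀ n, |(z n).re| ≤ (M : ℤ) ∧ |(z n).im| ≤ (M : ℤ) := by
    intro n
    have h1 := hK1 n
    have h2 := hK2 n
    have h3 := abs_le.mp (hd n)
    set x : ℝ := ((z n).re : ℝ) - w1 with hx
    set y : ℝ := ((z n).im : ℝ) - w2 with hy
    have hs1 : x * e1 + y * e2 < max K1 K2 := lt_of_lt_of_le h1 (le_max_left _ _)
    have hs2 : -(max K1 K2) < x * e1 + y * e2 := by
      have : x * -e1 + y * -e2 < max K1 K2 := lt_of_lt_of_le h2 (le_max_right _ _)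
      linarith
    have hKpos : 0 < max K1 K2 := by linarith
    have hsq : x ^ 2 + y ^ 2 ≤ (max K1 K2 + R) ^ 2 := by
      have hid : x ^ 2 + y ^ 2 = (x * e1 + y * e2) ^ 2 + (y * e1 - x * e2) ^ 2 := by
        have : x ^ 2 + y ^ 2 = (x ^ 2 + y ^ 2) * (e1 ^ 2 + e2 ^ 2) := by rw [he, mul_one]
        rw [this]; ring
      rw [hid]
      have hA : (x * e1 + y * e2) ^ 2 ≤ (max K1 K2) ^ 2 := by
        apply sq_le_sq' <;> linarith
      have hB : (y * e1 - x * e2) ^ 2 ≤ R ^ 2 := by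
        apply sq_le_sq' <;> linarith
      nlinarith
    have hKR : 0 ≤ max K1 K2 + R := by linarith
    have hxa : |x| ≤ max K1 K2 + R := by
      apply abs_le_of_sq_le_sq _ hKR
      nlinarith [sq_nonneg y]
    have hya : |y| ≤ max K1 K2 + R := by
      apply abs_le_of_sq_le_sq _ hKR
      nlinarith [sq_nonneg x]
    constructor
    · have : |((z n).re : ℝ)| ≤ (M : ℝ) := by
        have e : ((z n).re : ℝ) = x + w1 := by rw [hx]; ring
        rw [e]
        have := abs_add_le x w1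
        linarith [abs_nonneg w2]
      exact_mod_cast this
    · have : |((z n).im : ℝ)| ≤ (M : ℝ) := by
        have e : ((z n).im : ℝ) = y + w2 := by rw [hy]; ring
        rw [e]
        have := abs_add_le y w2
        linarith [abs_nonneg w1]
      exact_mod_cast this
  -- finitely many lattice points in the box
  have hfinj : Function.Injective (fun n => ((z n).re, (z n).im)) := by
    intro a b hab
    apply hinj
    have h1 : (z a).re = (z b).re := congrArg Prod.fst hab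
    have h2 : (z a).im = (z b).im := congrArg Prod.snd hab
    exact Zsqrtd.ext h1 h2
  have hfin : (Set.range (fun n => ((z n).re, (z n).im))).Finite := by
    apply (Finset.finite_toSet (Finset.Icc (-(M : ℤ)) M ×ˢ Finset.Icc (-(M : ℤ)) M)).subset
    rintro _ ⟨n, rfl⟩
    simp only [Finset.coe_product, Finset.coe_Icc, Set.mem_prod, Set.mem_Icc]
    exact ⟨abs_le.mp (hbound n).1, abs_le.mp (hbound n).2⟩
  exact (Set.infinite_range_of_injective hfinj) hfin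

/-- Strip theorem: no infinite sequence of distinct Gaussian primes with bounded steps stays
within bounded distance of a real line in the complex plane. -/
theorem no_walk_near_line (w v : ℂ) (hv : v ≠ 0) (R D : ℝ) (z : ℕ → GaussianInt)
    (hinj : Function.Injective z) (hz : ∀ n, Prime (z n))
    (hstep : ∀ n, ‖GaussianInt.toComplex (z (n + 1)) - GaussianInt.toComplex (z n)‖ ≤ D)
    (hstrip : ∀ n, ∃ t : ℝ, ‖GaussianInt.toComplex (z n) - (w + (t : ℂ) * v)‖ ≤ R) : False := by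
  have hnv : 0 < ‖v‖ := norm_pos_iff.mpr hv
  have hnv2 : ‖v‖ ^ 2 = v.re * v.re + v.im * v.im := by
    rw [Complex.sq_norm, Complex.normSq_apply]
  have he : (v.re / ‖v‖) ^ 2 + (v.im / ‖v‖) ^ 2 = 1 := by
    field_simp
    nlinarith
  have hD : 0 ≤ D := le_trans (norm_nonneg _) (hstep 0)
  have hR : 0 ≤ R := by
    obtain ⟨t, ht⟩ := hstrip 0
    exact le_trans (norm_nonneg _) ht
  apply no_walk_real (v.re / ‖v‖) (v.im / ‖v‖) w.re w.im R D he hR hD z hinj hz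
  · intro n
    obtain ⟨t, ht⟩ := hstrip n
    have h := (abs_proj_le (GaussianInt.toComplex (z n) - (w + (t : ℂ) * v)) _ _ he).2
    have e : (((z n).im : ℝ) - w.im) * (v.re / ‖v‖) - (((z n).re : ℝ) - w.re) * (v.im / ‖v‖)
        = (GaussianInt.toComplex (z n) - (w + (t : ℂ) * v)).im * (v.re / ‖v‖)
          - (GaussianInt.toComplex (z n) - (w + (t : ℂ) * v)).re * (v.im / ‖v‖) := by
      rw [re_sub_line, im_sub_line]
      have hvv : v.im * (v.re / ‖v‖) - v.re * (v.im / ‖v‖) = 0 := by ring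
      linear_combination (-t) * hvv
    rw [e]
    exact le_trans h ht
  · intro n
    have h := (abs_proj_le (GaussianInt.toComplex (z (n + 1)) - GaussianInt.toComplex (z n))
      _ _ he).1
    have e : ((((z (n + 1)).re : ℝ) - w.re) * (v.re / ‖v‖)
          + (((z (n + 1)).im : ℝ) - w.im) * (v.im / ‖v‖))
        - ((((z n).re : ℝ) - w.re) * (v.re / ‖v‖) + (((z n).im : ℝ) - w.im) * (v.im / ‖v‖))
        = (GaussianInt.toComplex (z (n + 1)) - GaussianInt.toComplex (z n)).re * (v.re / ‖v‖)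
          + (GaussianInt.toComplex (z (n + 1)) - GaussianInt.toComplex (z n)).im * (v.im / ‖v‖) := by
      rw [re_sub_gauss, im_sub_gauss]
      ring
    rw [e]
    exact le_trans h (hstep n)


end Vale.Agent.Lib.Helper1.Moat
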