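import Mathlib
import Vale.Agent.Lib.Helper1.Moat

namespace Vale.Agent.Lib.Helper1.Moat

/-- Dirichlet approximation with size control on the lattice vector. -/
theorem exists_approx_bdd (e1 e2 : ℝ) (he : e1 ^ 2 + e2 ^ 2 = 1) (N : ℕ) (hN : 0 < N) :
    ∃ a b : ℤ, (a ≠ 0 ∨ b ≠ 0) ∧ |(b : ℝ) * e1 - (a : ℝ) * e2| ≤ 1 / ((N : ℝ) + 1) ∧
      |(a : ℝ)| ≤ N + 1 ∧ |(b : ℝ)| ≤ N + 1 := by
  have h1 : |e1| ≤ 1 := abs_le_one_of_sq_add_sq he
  have h2 : |e2| ≤ 1 := abs_le_one_of_sq_add_sq (e1 := e2) (e2 := e1) (by linarith)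
  have hN0 : (0 : ℝ) ≤ N := Nat.cast_nonneg N
  have hsmall : (1 : ℝ) / ((N : ℝ) + 1) ≤ 1 := by
    rw [div_le_one (by linarith)]; linarith
  by_cases h : |e2| ≤ |e1|
  · have he1 : e1 ≠ 0 := by
      intro h0
      rw [h0, abs_zero] at h
      have : e2 = 0 := abs_eq_zero.mp (le_antisymm h (abs_nonneg _))
      rw [h0, this] at he
      norm_num at he
    have hxi : |e2 / e1| ≤ 1 := by
      rw [abs_div, div_le_one (abs_pos.mpr he1)]; exact h
    obtain ⟨j, k, hk0, hkN, habs⟩ := Real.exists_int_int_abs_mul_sub_le (e2 / e1) hN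
    have hk0' : (0 : ℝ) < k := by exact_mod_cast hk0
    have hkN' : (k : ℝ) ≤ N := by exact_mod_cast hkN
    refine ⟨k, j, Or.inl hk0.ne', ?_, ?_, ?_⟩
    · have : (j : ℝ) * e1 - (k : ℝ) * e2 = -(e1 * ((k : ℝ) * (e2 / e1) - j)) := by
        field_simp
        ring
      rw [this, abs_neg]
      calc |e1 * ((k : ℝ) * (e2 / e1) - j)| ≤ 1 * (1 / ((N : ℝ) + 1)) := abs_mul_le_mul h1 habs
        _ = 1 / ((N : ℝ) + 1) := one_mul _
    · rw [abs_of_pos hk0']; linarith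
    · have hkx : |(k : ℝ) * (e2 / e1)| ≤ N * 1 := abs_mul_le_mul (by rw [abs_of_pos hk0']; exact hkN') hxi
      have e : (j : ℝ) = (k : ℝ) * (e2 / e1) - ((k : ℝ) * (e2 / e1) - j) := by ring
      rw [e]
      have := abs_sub ((k : ℝ) * (e2 / e1)) ((k : ℝ) * (e2 / e1) - j)
      linarith
  · have he2 : e2 ≠ 0 := by
      intro h0
      rw [h0, abs_zero] at h
      exact h (abs_nonneg _)
    have hxi : |e1 / e2| ≤ 1 := by
      rw [abs_div, div_le_one (abs_pos.mpr he2)]; exact le_of_lt (not_le.mp h)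
    obtain ⟨j, k, hk0, hkN, habs⟩ := Real.exists_int_int_abs_mul_sub_le (e1 / e2) hN
    have hk0' : (0 : ℝ) < k := by exact_mod_cast hk0
    have hkN' : (k : ℝ) ≤ N := by exact_mod_cast hkN
    refine ⟨j, k, Or.inr hk0.ne', ?_, ?_, ?_⟩
    · have : (k : ℝ) * e1 - (j : ℝ) * e2 = e2 * ((k : ℝ) * (e1 / e2) - j) := by
        field_simp
      rw [this]
      calc |e2 * ((k : ℝ) * (e1 / e2) - j)| ≤ 1 * (1 / ((N : ℝ) + 1)) := abs_mul_le_mul h2 habs
        _ = 1 / ((N : ℝ) + 1) := one_mul _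
    · have hkx : |(k : ℝ) * (e1 / e2)| ≤ N * 1 := abs_mul_le_mul (by rw [abs_of_pos hk0']; exact hkN') hxi
      have e : (j : ℝ) = (k : ℝ) * (e1 / e2) - ((k : ℝ) * (e1 / e2) - j) := by ring
      rw [e]
      have := abs_sub ((k : ℝ) * (e1 / e2)) ((k : ℝ) * (e1 / e2) - j)
      linarith
    · rw [abs_of_pos hk0']; linarith

/-- The approximating vector can be taken primitive, keeping the size control. -/
theorem exists_primitive_approx_bdd (e1 e2 : ℝ) (he : e1 ^ 2 + e2 ^ 2 = 1) (N : ℕ)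
    (hN : 0 < N) :
    ∃ a b : ℤ, IsCoprime a b ∧ |(b : ℝ) * e1 - (a : ℝ) * e2| ≤ 1 / ((N : ℝ) + 1) ∧
      |(a : ℝ)| ≤ N + 1 ∧ |(b : ℝ)| ≤ N + 1 := by
  obtain ⟨a0, b0, hne, h, hA, hB⟩ := exists_approx_bdd e1 e2 he N hN
  have hg : 0 < Int.gcd a0 b0 := by
    rcases hne with h0 | h0
    · exact Int.gcd_pos_of_ne_zero_left _ h0
    · exact Int.gcd_pos_of_ne_zero_right _ h0
  obtain ⟨a, b, hab, ha, hb⟩ := Int.exists_gcd_one hg
  have hg1 : (1 : ℝ) ≤ (Int.gcd a0 b0 : ℝ) := by exact_mod_cast hg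
  have ha' : (a0 : ℝ) = (a : ℝ) * (Int.gcd a0 b0 : ℝ) := by
    exact_mod_cast congrArg (Int.cast : ℤ → ℝ) ha
  have hb' : (b0 : ℝ) = (b : ℝ) * (Int.gcd a0 b0 : ℝ) := by
    exact_mod_cast congrArg (Int.cast : ℤ → ℝ) hb
  refine ⟨a, b, Int.isCoprime_iff_gcd_eq_one.mpr hab, ?_, ?_, ?_⟩
  · have hEq : (b0 : ℝ) * e1 - (a0 : ℝ) * e2
        = (Int.gcd a0 b0 : ℝ) * ((b : ℝ) * e1 - (a : ℝ) * e2) := by
      rw [ha', hb']; ring
    rw [hEq, abs_mul, abs_of_pos (by linarith)] at h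
    calc |(b : ℝ) * e1 - (a : ℝ) * e2|
        ≤ (Int.gcd a0 b0 : ℝ) * |(b : ℝ) * e1 - (a : ℝ) * e2| := by
          nlinarith [abs_nonneg ((b : ℝ) * e1 - (a : ℝ) * e2)]
      _ ≤ 1 / ((N : ℝ) + 1) := h
  · rw [ha', abs_mul, abs_of_pos (by linarith : (0 : ℝ) < (Int.gcd a0 b0 : ℝ))] at hA
    nlinarith [abs_nonneg (a : ℝ)]
  · rw [hb', abs_mul, abs_of_pos (by linarith : (0 : ℝ) < (Int.gcd a0 b0 : ℝ))] at hB
    nlinarith [abs_nonneg (b : ℝ)]

/-- Real estimate: two-sided control of the position along the line. -/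
theorem center_pos_upper (e1 e2 w1 w2 T x1 y1 k P a b : ℝ) (he : e1 ^ 2 + e2 ^ 2 = 1)
    (hdx : |(w1 + T * e1) - x1| ≤ 1 / 2) (hdy : |(w2 + T * e2) - y1| ≤ 1 / 2)
    (hk0 : 0 ≤ k) (hkP : k < P) :
    (x1 + k * a - w1) * e1 + (y1 + k * b - w2) * e2 ≤ T + 1 + P * (|a| + |b|) := by
  have h1 : |e1| ≤ 1 := abs_le_one_of_sq_add_sq he
  have h2 : |e2| ≤ 1 := abs_le_one_of_sq_add_sq (e1 := e2) (e2 := e1) (by linarith)
  have hPpos : (0 : ℝ) < P := lt_of_le_of_lt hk0 hkP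
  have hE : (x1 + k * a - w1) * e1 + (y1 + k * b - w2) * e2
      = T * (e1 ^ 2 + e2 ^ 2) - (((w1 + T * e1) - x1) * e1 + ((w2 + T * e2) - y1) * e2)
        + k * (a * e1 + b * e2) := by
    ring
  rw [hE, he]
  have hA : |((w1 + T * e1) - x1) * e1 + ((w2 + T * e2) - y1) * e2| ≤ 1 := by
    have ha1 := abs_mul_le_mul hdx h1
    have ha2 := abs_mul_le_mul hdy h2
    have := abs_add_le (((w1 + T * e1) - x1) * e1) (((w2 + T * e2) - y1) * e2)
    linarith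
  have hB : |k * (a * e1 + b * e2)| ≤ P * (|a| + |b|) := by
    rw [abs_mul, abs_of_nonneg hk0]
    have hb1 : |a * e1| ≤ |a| * 1 := abs_mul_le_mul le_rfl h1
    have hb2 : |b * e2| ≤ |b| * 1 := abs_mul_le_mul le_rfl h2
    have hb3 : |a * e1 + b * e2| ≤ |a| + |b| := by
      have := abs_add_le (a * e1) (b * e2)
      linarith
    exact mul_le_mul hkP.le hb3 (abs_nonneg _) hPpos.le
  have := (abs_le.mp hA).1
  have := (abs_le.mp hB).2
  linarith

/-- Uniform key lemma: for each box half-side `m` there are constants `C` and `B`, depending on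
`m` only, such that for every line (unit direction `(e1, e2)`, base point `(w1, w2)`) and every
position `S` along it there is a lattice point `c` within distance `2` of the line, at position
in `(S, S + C]`, such that every lattice point of the box of half-side `m` around `c` whose norm
exceeds `B ^ 2` is not a Gaussian prime. -/
theorem exists_center_unif (m : ℕ) :
    ∃ C B : ℕ, ∀ (e1 e2 w1 w2 : ℝ), e1 ^ 2 + e2 ^ 2 = 1 → ∀ S : ℝ,
      ∃ cx cy : ℤ, |((cy : ℝ) - w2) * e1 - ((cx : ℝ) - w1) * e2| ≤ 2 ∧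
        S < ((cx : ℝ) - w1) * e1 + ((cy : ℝ) - w2) * e2 ∧
        ((cx : ℝ) - w1) * e1 + ((cy : ℝ) - w2) * e2 ≤ S + C ∧
        ∀ u1 u2 : ℤ, |u1| ≤ m → |u2| ≤ m →
          (B : ℤ) ^ 2 < (cx + u1) ^ 2 + (cy + u2) ^ 2 →
          ¬ Prime (⟨cx + u1, cy + u2⟩ : GaussianInt) := by
  obtain ⟨P, B, hP, hshift⟩ :=
    exists_shift (Finset.Icc (-(m : ℤ)) m ×ˢ Finset.Icc (-(m : ℤ)) m)
  refine ⟨2 * P * (2 * P + 2) + 3, B, ?_⟩
  intro e1 e2 w1 w2 he S
  obtain ⟨a, b, hab, happ, haB, hbB⟩ := exists_primitive_approx_bdd e1 e2 he P hP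
  obtain ⟨T, hT⟩ : ∃ T : ℝ, T = S + P * (|(a : ℝ)| + |(b : ℝ)|) + 2 := ⟨_, rfl⟩
  obtain ⟨x1, hx1⟩ : ∃ x1 : ℤ, x1 = round (w1 + T * e1) := ⟨_, rfl⟩
  obtain ⟨y1, hy1⟩ : ∃ y1 : ℤ, y1 = round (w2 + T * e2) := ⟨_, rfl⟩
  obtain ⟨k, hkP, hk⟩ := hshift a b x1 y1 hab
  have hdx : |(w1 + T * e1) - (x1 : ℝ)| ≤ 1 / 2 := by rw [hx1]; exact abs_sub_round _
  have hdy : |(w2 + T * e2) - (y1 : ℝ)| ≤ 1 / 2 := by rw [hy1]; exact abs_sub_round _
  have hkP' : (k : ℝ) < P := by exact_mod_cast hkP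
  have hk0 : (0 : ℝ) ≤ k := Nat.cast_nonneg k
  have hPpos : (0 : ℝ) < P := by exact_mod_cast hP
  refine ⟨x1 + k * a, y1 + k * b, ?_, ?_, ?_, ?_⟩
  · have := center_dist e1 e2 w1 w2 T x1 y1 k P a b he hdx hdy hk0 hkP' happ
    push_cast
    exact this
  · have := center_pos e1 e2 w1 w2 T x1 y1 k P a b (-w1) (-w2) he hdx hdy hk0 hkP'
    simp only [neg_add_cancel, abs_zero, add_zero, sub_zero] at this
    push_cast
    have e : ((x1 : ℝ) + k * a - w1) * e1 + ((y1 : ℝ) + k * b - w2) * e2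
        = ((x1 : ℝ) + k * a + -w1) * e1 + ((y1 : ℝ) + k * b + -w2) * e2 := by ring
    rw [e]
    linarith
  · have := center_pos_upper e1 e2 w1 w2 T x1 y1 k P a b he hdx hdy hk0 hkP'
    push_cast
    have hab2 : (P : ℝ) * (|(a : ℝ)| + |(b : ℝ)|) ≤ P * (2 * P + 2) := by
      apply mul_le_mul_of_nonneg_left _ hPpos.le
      linarith
    linarith
  · intro u1 u2 hu1 hu2 hbig
    have hmem : (u1, u2) ∈ Finset.Icc (-(m : ℤ)) m ×ˢ Finset.Icc (-(m : ℤ)) m := by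
      rw [Finset.mem_product, Finset.mem_Icc, Finset.mem_Icc]
      exact ⟨abs_le.mp hu1, abs_le.mp hu2⟩
    obtain ⟨q, hq, hqB, hqd⟩ := hk (u1, u2) hmem
    have hnorm : (⟨x1 + k * a + u1, y1 + k * b + u2⟩ : GaussianInt).norm
        = (x1 + k * a + u1) ^ 2 + (y1 + k * b + u2) ^ 2 := by
      rw [Zsqrtd.norm_def]; ring
    apply not_prime_of_dvd_norm _ q hq
    · rw [hnorm]; exact hqd
    · rw [hnorm]
      have hqB' : (q : ℤ) ≤ (B : ℤ) := by exact_mod_cast hqB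
      have hq0 : (0 : ℤ) ≤ q := Int.natCast_nonneg q
      have : (q : ℤ) ^ 2 ≤ (B : ℤ) ^ 2 := by nlinarith
      linarith


/-- Wall lemma, conditional form: a Gaussian prime of large norm in the strip cannot be within
`D` (along the line) of a centre whose box has no large-norm primes. -/
theorem wall_unif (e1 e2 w1 w2 R D : ℝ) (he : e1 ^ 2 + e2 ^ 2 = 1)
    (m : ℕ) (hm : R + D + 2 ≤ m) (B : ℕ) (cx cy : ℤ)
    (hc : |((cy : ℝ) - w2) * e1 - ((cx : ℝ) - w1) * e2| ≤ 2)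
    (hnp : ∀ u1 u2 : ℤ, |u1| ≤ m → |u2| ≤ m → (B : ℤ) ^ 2 < (cx + u1) ^ 2 + (cy + u2) ^ 2 →
      ¬ Prime (⟨cx + u1, cy + u2⟩ : GaussianInt))
    (g : GaussianInt) (hg : Prime g) (hgB : (B : ℤ) ^ 2 < g.re ^ 2 + g.im ^ 2)
    (hgd : |((g.im : ℝ) - w2) * e1 - ((g.re : ℝ) - w1) * e2| ≤ R)
    (hgs : |(((g.re : ℝ) - w1) * e1 + ((g.im : ℝ) - w2) * e2)
      - (((cx : ℝ) - w1) * e1 + ((cy : ℝ) - w2) * e2)| ≤ D) : False := by
  have hR : 0 ≤ R := le_trans (abs_nonneg _) hgd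
  have hD : 0 ≤ D := le_trans (abs_nonneg _) hgs
  have hm0 : (0 : ℝ) ≤ m := by linarith
  have key : ((g.re : ℝ) - cx) ^ 2 + ((g.im : ℝ) - cy) ^ 2 ≤ (m : ℝ) ^ 2 := by
    have hid : ((g.re : ℝ) - cx) ^ 2 + ((g.im : ℝ) - cy) ^ 2
        = ((((g.re : ℝ) - w1) * e1 + ((g.im : ℝ) - w2) * e2)
            - (((cx : ℝ) - w1) * e1 + ((cy : ℝ) - w2) * e2)) ^ 2
          + ((((g.im : ℝ) - w2) * e1 - ((g.re : ℝ) - w1) * e2)
            - (((cy : ℝ) - w2) * e1 - ((cx : ℝ) - w1) * e2)) ^ 2 := by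
      have : ((g.re : ℝ) - cx) ^ 2 + ((g.im : ℝ) - cy) ^ 2
          = (((g.re : ℝ) - cx) ^ 2 + ((g.im : ℝ) - cy) ^ 2) * (e1 ^ 2 + e2 ^ 2) := by
        rw [he, mul_one]
      rw [this]; ring
    rw [hid]
    have h1 := abs_le.mp hgs
    have h2 := abs_le.mp hgd
    have h3 := abs_le.mp hc
    have hA : ((((g.re : ℝ) - w1) * e1 + ((g.im : ℝ) - w2) * e2)
            - (((cx : ℝ) - w1) * e1 + ((cy : ℝ) - w2) * e2)) ^ 2 ≤ D ^ 2 := by
      apply sq_le_sq' <;> linarith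
    have hB : ((((g.im : ℝ) - w2) * e1 - ((g.re : ℝ) - w1) * e2)
            - (((cy : ℝ) - w2) * e1 - ((cx : ℝ) - w1) * e2)) ^ 2 ≤ (R + 2) ^ 2 := by
      apply sq_le_sq' <;> linarith
    nlinarith
  have hu1 : |g.re - cx| ≤ (m : ℤ) := by
    have : |((g.re - cx : ℤ) : ℝ)| ≤ (m : ℝ) := by
      push_cast
      apply abs_le_of_sq_le_sq _ hm0
      nlinarith [sq_nonneg ((g.im : ℝ) - cy)]
    exact_mod_cast this
  have hu2 : |g.im - cy| ≤ (m : ℤ) := by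
    have : |((g.im - cy : ℤ) : ℝ)| ≤ (m : ℝ) := by
      push_cast
      apply abs_le_of_sq_le_sq _ hm0
      nlinarith [sq_nonneg ((g.re : ℝ) - cx)]
    exact_mod_cast this
  have e1' : cx + (g.re - cx) = g.re := by ring
  have e2' : cy + (g.im - cy) = g.im := by ring
  apply hnp (g.re - cx) (g.im - cy) hu1 hu2 (by rw [e1', e2']; exact hgB)
  have : (⟨cx + (g.re - cx), cy + (g.im - cy)⟩ : GaussianInt) = g := by
    apply Zsqrtd.ext <;> simp
  rw [this]; exact hg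

/-- One-sided uniform bound: a bounded-step walk on large-norm Gaussian primes inside a strip
advances by less than `C` in the direction `(e1, e2)`. -/
theorem one_sided_unif (e1 e2 w1 w2 R D : ℝ) (he : e1 ^ 2 + e2 ^ 2 = 1)
    (m : ℕ) (hm : R + D + 2 ≤ m) (C B : ℕ)
    (hkey : ∀ S : ℝ, ∃ cx cy : ℤ, |((cy : ℝ) - w2) * e1 - ((cx : ℝ) - w1) * e2| ≤ 2 ∧
        S < ((cx : ℝ) - w1) * e1 + ((cy : ℝ) - w2) * e2 ∧
        ((cx : ℝ) - w1) * e1 + ((cy : ℝ) - w2) * e2 ≤ S + C ∧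
        ∀ u1 u2 : ℤ, |u1| ≤ m → |u2| ≤ m →
          (B : ℤ) ^ 2 < (cx + u1) ^ 2 + (cy + u2) ^ 2 →
          ¬ Prime (⟨cx + u1, cy + u2⟩ : GaussianInt))
    (z : ℕ → GaussianInt) (hz : ∀ n, Prime (z n))
    (hfar : ∀ n, (B : ℤ) ^ 2 < (z n).re ^ 2 + (z n).im ^ 2)
    (hd : ∀ n, |(((z n).im : ℝ) - w2) * e1 - (((z n).re : ℝ) - w1) * e2| ≤ R)
    (hs : ∀ n, |((((z (n + 1)).re : ℝ) - w1) * e1 + (((z (n + 1)).im : ℝ) - w2) * e2)
      - ((((z n).re : ℝ) - w1) * e1 + (((z n).im : ℝ) - w2) * e2)| ≤ D) :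
    ∀ n, (((z n).re : ℝ) - w1) * e1 + (((z n).im : ℝ) - w2) * e2
      < ((((z 0).re : ℝ) - w1) * e1 + (((z 0).im : ℝ) - w2) * e2) + C := by
  obtain ⟨cx, cy, hc, hS, hSC, hnp⟩ := hkey
    (((((z 0).re : ℝ) - w1) * e1 + (((z 0).im : ℝ) - w2) * e2) + D)
  have hD : 0 ≤ D := le_trans (abs_nonneg _) (hs 0)
  have claim : ∀ n, (((z n).re : ℝ) - w1) * e1 + (((z n).im : ℝ) - w2) * e2
      < (((cx : ℝ) - w1) * e1 + ((cy : ℝ) - w2) * e2) - D := by
    intro n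
    induction n with
    | zero => linarith
    | succ n ih =>
      by_contra hcon
      rw [not_lt] at hcon
      have h1 := abs_le.mp (hs n)
      apply wall_unif e1 e2 w1 w2 R D he m hm B cx cy hc hnp (z (n + 1)) (hz (n + 1))
        (hfar (n + 1)) (hd (n + 1))
      apply abs_le.mpr
      constructor <;> linarith
  intro n
  have := claim n
  linarith



/-- Real-coordinate form of the uniform theorem: a bounded-step walk on large-norm Gaussian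
primes inside a strip has bounded diameter. -/
theorem bounded_walk_real (e1 e2 w1 w2 R D : ℝ) (he : e1 ^ 2 + e2 ^ 2 = 1)
    (m : ℕ) (hm : R + D + 2 ≤ m) (C B : ℕ)
    (hkey : ∀ (f1 f2 : ℝ), f1 ^ 2 + f2 ^ 2 = 1 → ∀ S : ℝ, ∃ cx cy : ℤ,
        |((cy : ℝ) - w2) * f1 - ((cx : ℝ) - w1) * f2| ≤ 2 ∧
        S < ((cx : ℝ) - w1) * f1 + ((cy : ℝ) - w2) * f2 ∧
        ((cx : ℝ) - w1) * f1 + ((cy : ℝ) - w2) * f2 ≤ S + C ∧
        ∀ u1 u2 : ℤ, |u1| ≤ m → |u2| ≤ m →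
          (B : ℤ) ^ 2 < (cx + u1) ^ 2 + (cy + u2) ^ 2 →
          ¬ Prime (⟨cx + u1, cy + u2⟩ : GaussianInt))
    (z : ℕ → GaussianInt) (hz : ∀ n, Prime (z n))
    (hfar : ∀ n, (B : ℤ) ^ 2 < (z n).re ^ 2 + (z n).im ^ 2)
    (hd : ∀ n, |(((z n).im : ℝ) - w2) * e1 - (((z n).re : ℝ) - w1) * e2| ≤ R)
    (hs : ∀ n, |((((z (n + 1)).re : ℝ) - w1) * e1 + (((z (n + 1)).im : ℝ) - w2) * e2)
      - ((((z n).re : ℝ) - w1) * e1 + (((z n).im : ℝ) - w2) * e2)| ≤ D) :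
    ∀ i j, (((z i).re : ℝ) - (z j).re) ^ 2 + (((z i).im : ℝ) - (z j).im) ^ 2
      ≤ (2 * (C : ℝ) + 2 * R) ^ 2 := by
  have hup := one_sided_unif e1 e2 w1 w2 R D he m hm C B (hkey e1 e2 he) z hz hfar hd hs
  have he' : (-e1) ^ 2 + (-e2) ^ 2 = 1 := by rw [neg_sq, neg_sq]; exact he
  have hdown := one_sided_unif (-e1) (-e2) w1 w2 R D he' m hm C B (hkey (-e1) (-e2) he') z hz hfar
    (fun n => by
      have := hd n
      have e : (((z n).im : ℝ) - w2) * -e1 - (((z n).re : ℝ) - w1) * -e2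
          = -((((z n).im : ℝ) - w2) * e1 - (((z n).re : ℝ) - w1) * e2) := by ring
      rw [e, abs_neg]; exact this)
    (fun n => by
      have := hs n
      have e : ((((z (n + 1)).re : ℝ) - w1) * -e1 + (((z (n + 1)).im : ℝ) - w2) * -e2)
          - ((((z n).re : ℝ) - w1) * -e1 + (((z n).im : ℝ) - w2) * -e2)
          = -(((((z (n + 1)).re : ℝ) - w1) * e1 + (((z (n + 1)).im : ℝ) - w2) * e2)
          - ((((z n).re : ℝ) - w1) * e1 + (((z n).im : ℝ) - w2) * e2)) := by ring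
      rw [e, abs_neg]; exact this)
  intro i j
  have hR : 0 ≤ R := le_trans (abs_nonneg _) (hd 0)
  have hC : (0 : ℝ) ≤ C := Nat.cast_nonneg C
  have h1 := hup i
  have h2 := hup j
  have h3 := hdown i
  have h4 := hdown j
  have h5 := abs_le.mp (hd i)
  have h6 := abs_le.mp (hd j)
  have hid : (((z i).re : ℝ) - (z j).re) ^ 2 + (((z i).im : ℝ) - (z j).im) ^ 2
      = (((((z i).re : ℝ) - w1) * e1 + (((z i).im : ℝ) - w2) * e2)
          - ((((z j).re : ℝ) - w1) * e1 + (((z j).im : ℝ) - w2) * e2)) ^ 2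
        + (((((z i).im : ℝ) - w2) * e1 - (((z i).re : ℝ) - w1) * e2)
          - ((((z j).im : ℝ) - w2) * e1 - (((z j).re : ℝ) - w1) * e2)) ^ 2 := by
    have : (((z i).re : ℝ) - (z j).re) ^ 2 + (((z i).im : ℝ) - (z j).im) ^ 2
        = ((((z i).re : ℝ) - (z j).re) ^ 2 + (((z i).im : ℝ) - (z j).im) ^ 2)
          * (e1 ^ 2 + e2 ^ 2) := by rw [he, mul_one]
    rw [this]; ring
  rw [hid]
  have hA : (((((z i).re : ℝ) - w1) * e1 + (((z i).im : ℝ) - w2) * e2)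
          - ((((z j).re : ℝ) - w1) * e1 + (((z j).im : ℝ) - w2) * e2)) ^ 2 ≤ (2 * (C : ℝ)) ^ 2 := by
    apply sq_le_sq' <;> linarith
  have hB : (((((z i).im : ℝ) - w2) * e1 - (((z i).re : ℝ) - w1) * e2)
          - ((((z j).im : ℝ) - w2) * e1 - (((z j).re : ℝ) - w1) * e2)) ^ 2 ≤ (2 * R) ^ 2 := by
    apply sq_le_sq' <;> linarith
  nlinarith

/-- Uniform strip theorem. For all `D` and `R` there is `L` such that any sequence of Gaussian
primes of absolute value at least `L`, with steps at most `D`, that stays within distance `R` of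
some real line, has diameter at most `L`. -/
theorem bounded_walk (D R : ℝ) :
    ∃ L : ℝ, ∀ (w v : ℂ), v ≠ 0 → ∀ z : ℕ → GaussianInt, (∀ n, Prime (z n)) →
      (∀ n, L ≤ ‖GaussianInt.toComplex (z n)‖) →
      (∀ n, ‖GaussianInt.toComplex (z (n + 1)) - GaussianInt.toComplex (z n)‖ ≤ D) →
      (∀ n, ∃ t : ℝ, ‖GaussianInt.toComplex (z n) - (w + (t : ℂ) * v)‖ ≤ R) →
      ∀ i j, ‖GaussianInt.toComplex (z i) - GaussianInt.toComplex (z j)‖ ≤ L := by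
  obtain ⟨m, hm⟩ := exists_nat_ge (|R| + |D| + 2)
  obtain ⟨C, B, hkey⟩ := exists_center_unif m
  refine ⟨max (2 * (C : ℝ) + 2 * |R|) ((B : ℝ) + 1), ?_⟩
  intro w v hv z hz hfar hstep hstrip
  have hnv : 0 < ‖v‖ := norm_pos_iff.mpr hv
  have hnv2 : ‖v‖ ^ 2 = v.re * v.re + v.im * v.im := by
    rw [Complex.sq_norm, Complex.normSq_apply]
  have he : (v.re / ‖v‖) ^ 2 + (v.im / ‖v‖) ^ 2 = 1 := by
    field_simp
    nlinarith
  have hD : 0 ≤ D := le_trans (norm_nonneg _) (hstep 0)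
  have hR : 0 ≤ R := by
    obtain ⟨t, ht⟩ := hstrip 0
    exact le_trans (norm_nonneg _) ht
  have hm' : R + D + 2 ≤ m := by rw [abs_of_nonneg hR, abs_of_nonneg hD] at hm; exact hm
  have hfar' : ∀ n, (B : ℤ) ^ 2 < (z n).re ^ 2 + (z n).im ^ 2 := by
    intro n
    have h1 : (B : ℝ) + 1 ≤ ‖GaussianInt.toComplex (z n)‖ := le_trans (le_max_right _ _) (hfar n)
    have h2 : ‖GaussianInt.toComplex (z n)‖ ^ 2
        = ((z n).re : ℝ) ^ 2 + ((z n).im : ℝ) ^ 2 := by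
      rw [Complex.sq_norm, Complex.normSq_apply, ← GaussianInt.intCast_re,
        ← GaussianInt.intCast_im]; ring
    have hB0 : (0 : ℝ) ≤ B := Nat.cast_nonneg B
    have h3 : ((B : ℤ) : ℝ) ^ 2 < (((z n).re ^ 2 + (z n).im ^ 2 : ℤ) : ℝ) := by
      push_cast
      rw [← h2]
      nlinarith
    exact_mod_cast h3
  have hmain := bounded_walk_real (v.re / ‖v‖) (v.im / ‖v‖) w.re w.im R D he m hm' C B
    (fun f1 f2 hf S => hkey f1 f2 w.re w.im hf S) z hz hfar'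
    (fun n => by
      obtain ⟨t, ht⟩ := hstrip n
      have h := (abs_proj_le (GaussianInt.toComplex (z n) - (w + (t : ℂ) * v)) _ _ he).2
      have e : (((z n).im : ℝ) - w.im) * (v.re / ‖v‖) - (((z n).re : ℝ) - w.re) * (v.im / ‖v‖)
          = (GaussianInt.toComplex (z n) - (w + (t : ℂ) * v)).im * (v.re / ‖v‖)
            - (GaussianInt.toComplex (z n) - (w + (t : ℂ) * v)).re * (v.im / ‖v‖) := by
        rw [re_sub_line, im_sub_line]
        have hvv : v.im * (v.re / ‖v‖) - v.re * (v.im / ‖v‖) = 0 := by ring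
        linear_combination (-t) * hvv
      rw [e]
      exact le_trans h ht)
    (fun n => by
      have h := (abs_proj_le (GaussianInt.toComplex (z (n + 1)) - GaussianInt.toComplex (z n))
        _ _ he).1
      have e : ((((z (n + 1)).re : ℝ) - w.re) * (v.re / ‖v‖)
            + (((z (n + 1)).im : ℝ) - w.im) * (v.im / ‖v‖))
          - ((((z n).re : ℝ) - w.re) * (v.re / ‖v‖) + (((z n).im : ℝ) - w.im) * (v.im / ‖v‖))
          = (GaussianInt.toComplex (z (n + 1)) - GaussianInt.toComplex (z n)).re * (v.re / ‖v‖)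
            + (GaussianInt.toComplex (z (n + 1)) - GaussianInt.toComplex (z n)).im
              * (v.im / ‖v‖) := by
        rw [re_sub_gauss, im_sub_gauss]
        ring
      rw [e]
      exact le_trans h (hstep n))
  intro i j
  have hsq : ‖GaussianInt.toComplex (z i) - GaussianInt.toComplex (z j)‖ ^ 2
      = (((z i).re : ℝ) - (z j).re) ^ 2 + (((z i).im : ℝ) - (z j).im) ^ 2 := by
    rw [Complex.sq_norm, Complex.normSq_apply, re_sub_gauss, im_sub_gauss]; ring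
  have hC : (0 : ℝ) ≤ C := Nat.cast_nonneg C
  have hle : ‖GaussianInt.toComplex (z i) - GaussianInt.toComplex (z j)‖ ≤ 2 * (C : ℝ) + 2 * R := by
    have := abs_le_of_sq_le_sq (a := ‖GaussianInt.toComplex (z i) - GaussianInt.toComplex (z j)‖)
      (b := 2 * (C : ℝ) + 2 * R) (by rw [hsq]; exact hmain i j) (by linarith)
    exact le_trans (le_abs_self _) this
  calc ‖GaussianInt.toComplex (z i) - GaussianInt.toComplex (z j)‖ ≤ 2 * (C : ℝ) + 2 * R := hle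
    _ = 2 * (C : ℝ) + 2 * |R| := by rw [abs_of_nonneg hR]
    _ ≤ _ := le_max_left _ _


end Vale.Agent.Lib.Helper1.Moat
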