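import Mathlib
import Vale.Agent.Lib.Helper1.MoatUnif

namespace Vale.Agent.Lib.Helper1.Moat

open Filter



/-- Gaussian integers of bounded absolute value form a finite set. -/
theorem finite_norm_lt (M : ℝ) : {g : GaussianInt | ‖GaussianInt.toComplex g‖ < M}.Finite := by
  obtain ⟨m, hm⟩ := exists_nat_ge M
  have hfin : (Set.image (fun p : ℤ × ℤ => (⟨p.1, p.2⟩ : GaussianInt))
      (Finset.Icc (-(m : ℤ)) m ×ˢ Finset.Icc (-(m : ℤ)) m : Finset (ℤ × ℤ))).Finite :=
    Set.Finite.image _ (Finset.finite_toSet _)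
  apply hfin.subset
  intro g hg
  have hg : ‖GaussianInt.toComplex g‖ < M := hg
  refine ⟨(g.re, g.im), ?_, rfl⟩
  simp only [Finset.coe_product, Finset.coe_Icc, Set.mem_prod, Set.mem_Icc]
  have h1 : |(GaussianInt.toComplex g).re| ≤ ‖GaussianInt.toComplex g‖ := Complex.abs_re_le_norm _
  have h2 : |(GaussianInt.toComplex g).im| ≤ ‖GaussianInt.toComplex g‖ := Complex.abs_im_le_norm _
  rw [← GaussianInt.intCast_re] at h1
  rw [← GaussianInt.intCast_im] at h2
  have h1' : |(g.re : ℝ)| ≤ (m : ℝ) := by linarith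
  have h2' : |(g.im : ℝ)| ≤ (m : ℝ) := by linarith
  have h1'' : |g.re| ≤ (m : ℤ) := by exact_mod_cast h1'
  have h2'' : |g.im| ≤ (m : ℤ) := by exact_mod_cast h2'
  exact ⟨abs_le.mp h1'', abs_le.mp h2''⟩

/-- An injective sequence of Gaussian integers eventually leaves every disc. -/
theorem eventually_far (z : ℕ → GaussianInt) (hinj : Function.Injective z) (M : ℝ) :
    ∃ K : ℕ, ∀ k, K ≤ k → M ≤ ‖GaussianInt.toComplex (z k)‖ := by
  have hfin : (z ⁻¹' {g : GaussianInt | ‖GaussianInt.toComplex g‖ < M}).Finite :=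
    (finite_norm_lt M).preimage (Set.injOn_of_injective hinj)
  obtain ⟨b, hb⟩ := hfin.bddAbove
  refine ⟨b + 1, fun k hk => ?_⟩
  by_contra hcon
  rw [not_le] at hcon
  have : k ≤ b := hb (by simpa using hcon)
  omega

/-- A slowly growing function below a prescribed sequence of thresholds. -/
theorem exists_slow (Y : ℕ → ℕ) :
    ∃ f : ℝ → ℝ, Monotone f ∧ Tendsto f atTop atTop ∧
      ∀ (n : ℕ) (x : ℝ), x ≤ Y n → f x ≤ n := by
  obtain ⟨Y', hY'⟩ : ∃ Y' : ℕ → ℕ, Y' = fun n => ∑ j ∈ Finset.range (n + 1), (Y j + 1) := ⟨_, rfl⟩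
  have hmono : Monotone Y' := by
    intro a b hab
    rw [hY']
    exact Finset.sum_le_sum_of_subset (Finset.range_mono (by omega))
  have hbig : ∀ n, Y n < Y' n := by
    intro n
    rw [hY']
    show Y n < ∑ j ∈ Finset.range (n + 1), (Y j + 1)
    have : Y n + 1 ≤ ∑ j ∈ Finset.range (n + 1), (Y j + 1) :=
      Finset.single_le_sum (f := fun j => Y j + 1) (fun j _ => Nat.zero_le _)
        (Finset.mem_range.mpr (Nat.lt_succ_self n))
    omega
  have hge : ∀ n, n < Y' n := by
    intro n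
    rw [hY']
    show n < ∑ j ∈ Finset.range (n + 1), (Y j + 1)
    have : ∑ j ∈ Finset.range (n + 1), 1 ≤ ∑ j ∈ Finset.range (n + 1), (Y j + 1) :=
      Finset.sum_le_sum (fun j _ => by omega)
    simp at this
    omega
  have hex : ∀ x : ℝ, ∃ n : ℕ, x < (Y' n : ℝ) := by
    intro x
    obtain ⟨n, hn⟩ := exists_nat_ge x
    exact ⟨n, lt_of_le_of_lt hn (by exact_mod_cast hge n)⟩
  classical
  refine ⟨fun x => ((Nat.find (hex x) : ℕ) : ℝ), ?_, ?_, ?_⟩
  · intro x x' hxx'
    have h := Nat.find_spec (hex x')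
    have : Nat.find (hex x) ≤ Nat.find (hex x') := Nat.find_min' (hex x) (lt_of_le_of_lt hxx' h)
    show ((Nat.find (hex x) : ℕ) : ℝ) ≤ ((Nat.find (hex x') : ℕ) : ℝ)
    exact_mod_cast this
  · rw [tendsto_atTop]
    intro b
    obtain ⟨n, hn⟩ := exists_nat_ge b
    rw [eventually_atTop]
    refine ⟨(Y' n : ℝ), fun x hx => ?_⟩
    have : n < Nat.find (hex x) := by
      rw [Nat.lt_find_iff]
      intro k hk
      rw [not_lt]
      have : (Y' k : ℝ) ≤ (Y' n : ℝ) := by exact_mod_cast hmono hk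
      linarith
    have h2 : (n : ℝ) < ((Nat.find (hex x) : ℕ) : ℝ) := by exact_mod_cast this
    linarith
  · intro n x hx
    have h1 : x < (Y' n : ℝ) := lt_of_le_of_lt hx (by exact_mod_cast hbig n)
    have : Nat.find (hex x) ≤ n := Nat.find_min' (hex x) h1
    show ((Nat.find (hex x) : ℕ) : ℝ) ≤ (n : ℝ)
    exact_mod_cast this

/-- Widening-strip theorem: there is an unbounded nondecreasing function `f` such that no
infinite sequence of distinct Gaussian primes with bounded steps stays within distance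
`f (|z|)` of a fixed real line. -/
theorem no_walk_growing :
    ∃ f : ℝ → ℝ, Monotone f ∧ Tendsto f atTop atTop ∧
      ∀ (w v : ℂ), v ≠ 0 → ∀ (D : ℝ) (z : ℕ → GaussianInt), Function.Injective z →
        (∀ n, Prime (z n)) →
        (∀ n, ‖GaussianInt.toComplex (z (n + 1)) - GaussianInt.toComplex (z n)‖ ≤ D) →
        (∀ n, ∃ t : ℝ, ‖GaussianInt.toComplex (z n) - (w + (t : ℂ) * v)‖
          ≤ f ‖GaussianInt.toComplex (z n)‖) → False := by
  choose L hL using (fun n : ℕ => bounded_walk (n : ℝ) (n : ℝ))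
  obtain ⟨Lam, hLam⟩ : ∃ Lam : ℕ → ℕ, Lam = fun n => ⌈|L n|⌉₊ + n := ⟨_, rfl⟩
  obtain ⟨f, hmono, htend, hf⟩ := exists_slow (fun n => 3 * Lam n + 3 * n + 1)
  refine ⟨f, hmono, htend, ?_⟩
  intro w v hv D z hinj hz hstep hstrip
  have hD : 0 ≤ D := le_trans (norm_nonneg _) (hstep 0)
  obtain ⟨n, hn⟩ := exists_nat_ge (max D ‖GaussianInt.toComplex (z 0)‖ + 1)
  have hDn : D + 1 ≤ n := le_trans (by linarith [le_max_left D ‖GaussianInt.toComplex (z 0)‖]) hn
  have hz0n : ‖GaussianInt.toComplex (z 0)‖ + 1 ≤ n :=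
    le_trans (by linarith [le_max_right D ‖GaussianInt.toComplex (z 0)‖]) hn
  have hLamL : L n ≤ (Lam n : ℝ) := by
    rw [hLam]
    push_cast
    have h1 : L n ≤ |L n| := le_abs_self _
    have h2 : |L n| ≤ (⌈|L n|⌉₊ : ℝ) := Nat.le_ceil _
    have h3 : (0 : ℝ) ≤ n := Nat.cast_nonneg n
    linarith
  have hLamn : (n : ℝ) ≤ (Lam n : ℝ) := by
    rw [hLam]
    push_cast
    have : (0 : ℝ) ≤ (⌈|L n|⌉₊ : ℝ) := Nat.cast_nonneg _
    linarith
  obtain ⟨Y, hY⟩ : ∃ Y : ℝ, Y = 3 * (Lam n : ℝ) + 3 * n + 1 := ⟨_, rfl⟩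
  have hfY : ∀ x : ℝ, x ≤ Y → f x ≤ n := by
    intro x hx
    apply hf n x
    rw [hY] at hx
    push_cast
    exact hx
  classical
  -- the last time the walk is inside the disc of radius `Lam n`
  have hexK := eventually_far z hinj (Lam n : ℝ)
  have hK : ∀ k, Nat.find hexK ≤ k → (Lam n : ℝ) ≤ ‖GaussianInt.toComplex (z k)‖ :=
    Nat.find_spec hexK
  have hK0 : Nat.find hexK ≠ 0 := by
    intro h0
    have := hK 0 (by omega)
    linarith
  obtain ⟨K', hK'⟩ := Nat.exists_eq_succ_of_ne_zero hK0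
  have hmin : ¬ (∀ k, K' ≤ k → (Lam n : ℝ) ≤ ‖GaussianInt.toComplex (z k)‖) :=
    Nat.find_min hexK (by omega)
  have hzK' : ‖GaussianInt.toComplex (z K')‖ < (Lam n : ℝ) := by
    by_contra hcon
    rw [not_lt] at hcon
    apply hmin
    intro k hk
    rcases Nat.eq_or_lt_of_le hk with h | h
    · rw [← h]; exact hcon
    · exact hK k (by omega)
  obtain ⟨K, hKdef⟩ : ∃ K : ℕ, K = Nat.find hexK := ⟨_, rfl⟩
  rw [← hKdef] at hK hK'
  have hzK : ‖GaussianInt.toComplex (z K)‖ < (Lam n : ℝ) + D := by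
    rw [hK']
    have h1 := hstep K'
    have h2 : ‖GaussianInt.toComplex (z (K' + 1))‖ ≤ ‖GaussianInt.toComplex (z K')‖
        + ‖GaussianInt.toComplex (z (K' + 1)) - GaussianInt.toComplex (z K')‖ := by
      have := norm_add_le (GaussianInt.toComplex (z K'))
        (GaussianInt.toComplex (z (K' + 1)) - GaussianInt.toComplex (z K'))
      rw [add_sub_cancel] at this
      exact this
    linarith
  -- the first later time the walk is beyond radius `Y - D`
  have hex1 : ∃ k, K ≤ k ∧ Y - D < ‖GaussianInt.toComplex (z k)‖ := by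
    obtain ⟨K1, hK1⟩ := eventually_far z hinj (Y + 1)
    refine ⟨max K K1, le_max_left _ _, ?_⟩
    have := hK1 (max K K1) (le_max_right _ _)
    linarith
  have hk1 := Nat.find_spec hex1
  obtain ⟨k1, hk1def⟩ : ∃ k1 : ℕ, k1 = Nat.find hex1 := ⟨_, rfl⟩
  rw [← hk1def] at hk1
  have hbelow : ∀ k, K ≤ k → k < k1 → ‖GaussianInt.toComplex (z k)‖ ≤ Y - D := by
    intro k hk hlt
    have := Nat.find_min hex1 (by rw [← hk1def]; exact hlt)
    by_contra hcon
    rw [not_le] at hcon
    exact this ⟨hk, hcon⟩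
  have hYbig : (Lam n : ℝ) + D ≤ Y - D := by
    rw [hY]
    have : (0 : ℝ) ≤ (Lam n : ℝ) := Nat.cast_nonneg _
    linarith
  have hKk1 : K < k1 := by
    rcases Nat.eq_or_lt_of_le hk1.1 with h | h
    · exfalso
      have := hk1.2
      rw [← h] at this
      linarith
    · exact h
  have hzk1 : ‖GaussianInt.toComplex (z k1)‖ ≤ Y := by
    obtain ⟨k0, hk0⟩ := Nat.exists_eq_succ_of_ne_zero (by omega : k1 ≠ 0)
    have h0 := hbelow k0 (by omega) (by omega)
    have h1 := hstep k0
    rw [hk0]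
    have h2 : ‖GaussianInt.toComplex (z (k0 + 1))‖ ≤ ‖GaussianInt.toComplex (z k0)‖
        + ‖GaussianInt.toComplex (z (k0 + 1)) - GaussianInt.toComplex (z k0)‖ := by
      have := norm_add_le (GaussianInt.toComplex (z k0))
        (GaussianInt.toComplex (z (k0 + 1)) - GaussianInt.toComplex (z k0))
      rw [add_sub_cancel] at this
      exact this
    linarith
  -- the stopped walk between the two times
  have hidxK : ∀ j, K ≤ min (K + j) k1 := fun j => le_min (by omega) (by omega)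
  have hnormle : ∀ j, ‖GaussianInt.toComplex (z (min (K + j) k1))‖ ≤ Y := by
    intro j
    rcases Nat.lt_or_ge (K + j) k1 with h | h
    · rw [min_eq_left (le_of_lt h)]
      have := hbelow (K + j) (by omega) h
      linarith
    · rw [min_eq_right h]; exact hzk1
  have hfin := hL n w v hv (fun j => z (min (K + j) k1)) (fun j => hz _)
    (fun j => le_trans hLamL (hK _ (hidxK j)))
    (fun j => by
      rcases Nat.lt_or_ge (K + j) k1 with h | h
      · have e1 : min (K + (j + 1)) k1 = K + j + 1 := by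
          rw [min_eq_left (by omega)]; omega
        have e2 : min (K + j) k1 = K + j := min_eq_left (le_of_lt h)
        show ‖GaussianInt.toComplex (z (min (K + (j + 1)) k1))
          - GaussianInt.toComplex (z (min (K + j) k1))‖ ≤ (n : ℝ)
        rw [e1, e2]
        have := hstep (K + j)
        linarith
      · have e1 : min (K + (j + 1)) k1 = k1 := min_eq_right (by omega)
        have e2 : min (K + j) k1 = k1 := min_eq_right h
        show ‖GaussianInt.toComplex (z (min (K + (j + 1)) k1))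
          - GaussianInt.toComplex (z (min (K + j) k1))‖ ≤ (n : ℝ)
        rw [e1, e2, sub_self, norm_zero]
        exact Nat.cast_nonneg n)
    (fun j => by
      obtain ⟨t, ht⟩ := hstrip (min (K + j) k1)
      exact ⟨t, le_trans ht (hfY _ (hnormle j))⟩)
    0 (k1 - K)
  have e0 : min (K + 0) k1 = K := by rw [Nat.add_zero]; exact min_eq_left (le_of_lt hKk1)
  have e1 : min (K + (k1 - K)) k1 = k1 := by
    have : K + (k1 - K) = k1 := by omega
    rw [this, min_self]
  simp only [e0, e1] at hfin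
  have htri : ‖GaussianInt.toComplex (z k1)‖ - ‖GaussianInt.toComplex (z K)‖
      ≤ ‖GaussianInt.toComplex (z K) - GaussianInt.toComplex (z k1)‖ := by
    have := norm_sub_norm_le (GaussianInt.toComplex (z k1)) (GaussianInt.toComplex (z K))
    rw [norm_sub_rev] at this
    exact this
  have := hk1.2
  have hLam0 : (0 : ℝ) ≤ (Lam n : ℝ) := Nat.cast_nonneg _
  rw [hY] at this
  linarith


end Vale.Agent.Lib.Helper1.Moat
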